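import Mathlib
import Crest.Agent.X262.Wr72.Val
import Crest.Agent.X262.Loc95.Kv
import Crest.Agent.X262.Sark27.Term
import Crest.Agent.X277.Unf.Main
import Crest.Agent.X262.Geo.Adj
import Crest.Agent.X262.Gfm18.Base
import Crest.Agent.X262.Mod79.Bp

-- ▼ part X262/Rl57/Core
section

/-!
# Row 262, RL (helper57), part 0: the invariant of a semistable binary form

* `exists_pairs` : a multiset of `2 N` elements with multiplicities `≤ N` is a union of `N` pairs of
  distinct elements;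
* `one_le_root`  : if `v(p')^N ≤ S v(p)^N` for all polynomials `p`, then `1 ≤ S v(t - α)^N` for every
  algebraic `α`;
* `exists_inv`   : for `Q` of degree in `[N, 2 N]` with roots of multiplicity `≤ N` there is
  `φ ≠ 0` in the ground field with `v φ ≤ (v(Q(t)) S)^r` for all `v`, `t`, `S` as above.
-/

set_option autoImplicit false

open Polynomial

namespace Crest.Agent.X262.Rl57

section pairs

variable {α : Type*} [DecidableEq α]

theorem exists_two {s : Multiset α} {N : ℕ} (hc : s.card = 2 * (N + 1))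
    (h : ∀ a, s.count a ≤ N + 1) : ∃ a b, a ≠ b ∧ a ∈ s ∧ b ∈ s ∧
      ∀ x, x ≠ a → x ≠ b → s.count x ≤ N := by
  have hne : s.toFinset.Nonempty := by
    obtain ⟨a, ha⟩ := Multiset.card_pos_iff_exists_mem.1 (by omega : 0 < s.card)
    exact ⟨a, Multiset.mem_toFinset.2 ha⟩
  obtain ⟨a, ha, hmax⟩ := s.toFinset.exists_max_image (fun x => s.count x) hne
  have hne' : (s.toFinset.erase a).Nonempty := by
    by_contra hcon
    rw [Finset.not_nonempty_iff_eq_empty] at hcon
    have h1 := Multiset.toFinset_sum_count_eq s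
    rw [← Finset.add_sum_erase _ _ ha, hcon, Finset.sum_empty] at h1
    have := h a
    omega
  obtain ⟨b, hb, hmax'⟩ := (s.toFinset.erase a).exists_max_image (fun x => s.count x) hne'
  have hba := Finset.ne_of_mem_erase hb
  have hb' := Finset.mem_of_mem_erase hb
  refine ⟨a, b, hba.symm, Multiset.mem_toFinset.1 ha, Multiset.mem_toFinset.1 hb', ?_⟩
  intro x hxa hxb
  by_contra hcon
  have hx : x ∈ s.toFinset := Multiset.mem_toFinset.2 (Multiset.count_pos.1 (by omega))
  have h1 := hmax x hx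
  have h2 := hmax' x (Finset.mem_erase.2 ⟨hxa, hx⟩)
  have h3 : ∑ y ∈ ({a, b, x} : Finset α), s.count y ≤ s.card := by
    rw [← Multiset.toFinset_sum_count_eq s]
    refine Finset.sum_le_sum_of_subset fun y hy => ?_
    simp only [Finset.mem_insert, Finset.mem_singleton] at hy
    rcases hy with rfl | rfl | rfl <;> assumption
  rw [Finset.sum_insert (by simp [hba.symm, hxa.symm]), Finset.sum_pair hxb.symm] at h3
  omega

theorem exists_pairs : ∀ (N : ℕ) (s : Multiset α), s.card = 2 * N → (∀ a, s.count a ≤ N) →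
    ∃ P : Multiset (α × α), P.card = N ∧ P.map Prod.fst + P.map Prod.snd = s ∧ ∀ p ∈ P, p.1 ≠ p.2
  | 0, s, hc, _ => ⟨0, rfl, by simpa using (Multiset.card_eq_zero.1 hc).symm, by simp⟩
  | N + 1, s, hc, h => by
    obtain ⟨a, b, hab, ha, hb, hx⟩ := exists_two hc h
    have hb' : b ∈ s.erase a := (Multiset.mem_erase_of_ne hab.symm).2 hb
    obtain ⟨P, h1, h2, h3⟩ := exists_pairs N ((s.erase a).erase b) (by
      rw [Multiset.card_erase_of_mem hb', Multiset.card_erase_of_mem ha, hc]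
      simp only [Nat.pred_eq_sub_one]
      omega) fun x => by
        by_cases hxa : x = a
        · subst hxa
          rw [Multiset.count_erase_of_ne hab, Multiset.count_erase_self]
          have := h x
          omega
        · by_cases hxb : x = b
          · subst hxb
            rw [Multiset.count_erase_self, Multiset.count_erase_of_ne hxa]
            have := h x
            omega
          · rw [Multiset.count_erase_of_ne hxb, Multiset.count_erase_of_ne hxa]
            exact hx x hxa hxb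
    refine ⟨(a, b) ::ₘ P, by simp [h1], ?_, fun p hp => ?_⟩
    · rw [Multiset.map_cons, Multiset.map_cons, Multiset.cons_add, Multiset.add_cons, h2,
        Multiset.cons_erase hb', Multiset.cons_erase ha]
    · rcases Multiset.mem_cons.1 hp with rfl | hp
      · exact hab
      · exact h3 p hp

end pairs

section val

variable {L Ω Γ : Type*} [Field L] [Field Ω] [Algebra L Ω] [LinearOrderedCommGroupWithZero Γ]
  {v : Valuation Ω Γ} {t : Ω} {N : ℕ} {S : Γ}

/-- the derivative is bounded by `S ^ (1 / N)` -/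
def Bd (L : Type*) [Field L] [Algebra L Ω] (v : Valuation Ω Γ) (t : Ω) (N : ℕ) (S : Γ) : Prop :=
  ∀ p : L[X], v (aeval t (derivative p)) ^ N ≤ S * v (aeval t p) ^ N

theorem Bd.iter (h : Bd L v t N S) (p : L[X]) :
    ∀ j : ℕ, v (aeval t (derivative^[j] p)) ^ N ≤ S ^ j * v (aeval t p) ^ N
  | 0 => by simp
  | j + 1 => by
    rw [Function.iterate_succ_apply', pow_succ', mul_assoc]
    exact (h _).trans (mul_le_mul_right (h.iter p j) _)

theorem Bd.hasse (h : Bd L v t N S) (hq : ∀ n : ℕ, n ≠ 0 → v n = 1) (p : L[X]) (j : ℕ) :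
    v (aeval t (hasseDeriv j p)) ^ N ≤ S ^ j * v (aeval t p) ^ N := by
  have h1 := h.iter p j
  rw [← factorial_smul_hasseDeriv, LinearMap.smul_apply, nsmul_eq_mul, map_mul, map_natCast, map_mul,
    hq _ j.factorial_ne_zero, one_mul] at h1
  exact h1

theorem taylor_eq (p : L[X]) (t x : Ω) :
    aeval (t + x) p = ∑ j ∈ Finset.range (p.natDegree + 1), aeval t (hasseDeriv j p) * x ^ j := by
  have h1 : aeval (t + x) p = (taylor t (p.map (algebraMap L Ω))).eval x := by
    rw [taylor_eval, add_comm, eval_map_algebraMap]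
  rw [h1, eval_eq_sum_range' (n := p.natDegree + 1)
    (by rw [natDegree_taylor]; exact Nat.lt_succ_of_le natDegree_map_le)]
  refine Finset.sum_congr rfl fun j _ => ?_
  rw [taylor_coeff, ← eval_map_algebraMap]
  congr 2
  ext i
  simp [hasseDeriv_coeff]

theorem Bd.one_le_root (h : Bd L v t N S) (hq : ∀ n : ℕ, n ≠ 0 → v n = 1) {p : L[X]}
    (hp : aeval t p ≠ 0) {α : Ω} (hα : aeval α p = 0) : 1 ≤ S * v (t - α) ^ N := by
  by_contra hcon
  push Not at hcon
  have h1 := taylor_eq p t (α - t)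
  rw [add_sub_cancel, hα, Finset.sum_range_succ'] at h1
  simp only [hasseDeriv_zero', pow_zero, mul_one] at h1
  have h0 : v (aeval t p) ≠ 0 := by simpa using hp
  have h2 : v (∑ j ∈ Finset.range p.natDegree,
      aeval t (hasseDeriv (j + 1) p) * (α - t) ^ (j + 1)) < v (aeval t p) := by
    refine v.map_sum_lt h0 fun j _ => lt_of_pow_lt_pow_left₀ N zero_le ?_
    rw [map_mul, map_pow, mul_pow, ← pow_mul, mul_comm (j + 1) N, pow_mul, v.map_sub_swap]
    refine (mul_le_mul_left (h.hasse hq p (j + 1)) _).trans_lt ?_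
    rw [mul_right_comm, ← mul_pow]
    exact mul_lt_of_lt_one_left (zero_lt_iff.2 (pow_ne_zero _ h0))
      (pow_lt_one₀ zero_le hcon (Nat.succ_ne_zero j))
  rw [eq_neg_of_add_eq_zero_left h1.symm, v.map_neg] at h2
  exact lt_irrefl _ h2

variable {L' : Type*} [Field L'] [Algebra L L']

/-- the linear form of a point of the projective line -/
def lf (ψ : L' →ₐ[L] Ω) (t : Ω) : Option L' → Ω
  | none => 1
  | some a => t - ψ a

/-- the bracket of two points of the projective line -/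
def br : Option L' × Option L' → L'
  | (some a, some b) => a - b
  | (none, none) => 0
  | _ => 1

theorem br_ne : ∀ {p : Option L' × Option L'}, p.1 ≠ p.2 → br p ≠ 0
  | (some _, some _), h => sub_ne_zero.2 fun e => h (congrArg some e)
  | (none, none), h => absurd rfl h
  | (none, some _), _ => one_ne_zero
  | (some _, none), _ => one_ne_zero

theorem br_le {ψ : L' →ₐ[L] Ω} (h : ∀ a, 1 ≤ S * v (t - ψ a) ^ N) (hN : N ≠ 0) :
    ∀ p : Option L' × Option L', v (ψ (br p)) ^ N ≤ S * (v (lf ψ t p.1) * v (lf ψ t p.2)) ^ N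
  | (some a, some b) => by
    have h1 : ψ (a - b) = (t - ψ b) - (t - ψ a) := by rw [map_sub]; ring
    simp only [br, lf, h1, mul_pow]
    rcases le_total (v (t - ψ a)) (v (t - ψ b)) with h2 | h2
    · refine (pow_le_pow_left' ((v.map_sub _ _).trans (max_le le_rfl h2)) N).trans ?_
      rw [← mul_assoc]
      exact le_mul_of_one_le_left' (h a)
    · refine (pow_le_pow_left' ((v.map_sub _ _).trans (max_le h2 le_rfl)) N).trans ?_
      rw [mul_comm (v (t - ψ a) ^ N), ← mul_assoc]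
      exact le_mul_of_one_le_left' (h b)
  | (none, none) => by simp [br, hN]
  | (none, some b) => by simpa [br, lf] using h b
  | (some a, none) => by simpa [br, lf] using h a

theorem prod_br_le {ψ : L' →ₐ[L] Ω} (h : ∀ a, 1 ≤ S * v (t - ψ a) ^ N) (hN : N ≠ 0)
    (P : Multiset (Option L' × Option L')) : v (ψ (P.map br).prod) ^ N ≤
      S ^ P.card * v ((P.map Prod.fst + P.map Prod.snd).map (lf ψ t)).prod ^ N := by
  induction P using Multiset.induction_on with
  | empty => simp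
  | cons p P ih =>
    simp only [Multiset.map_cons, Multiset.prod_cons, map_mul, mul_pow, Multiset.card_cons,
      Multiset.map_add, Multiset.prod_add] at ih ⊢
    refine (mul_le_mul' (br_le h hN p) ih).trans (le_of_eq ?_)
    rw [mul_pow, pow_succ]
    ac_rfl

end val

section inv

variable {L : Type*} [Field L] [CharZero L]

/-- **the invariant** -/
theorem exists_inv {Q : L[X]} {N : ℕ} (hN : N ≠ 0) (h1 : N ≤ Q.natDegree) (h2 : Q.natDegree ≤ 2 * N)
    (h3 : ∀ p : L[X], Irreducible p → ¬ p ^ (N + 1) ∣ Q) : ∃ r : ℕ, 0 < r ∧ ∃ φ : L, φ ≠ 0 ∧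
      ∀ (Ω Γ : Type*) [Field Ω] [Algebra L Ω] [IsAlgClosed Ω] [LinearOrderedCommGroupWithZero Γ]
        (v : Valuation Ω Γ) (t : Ω) (S : Γ), Transcendental L t → (∀ n : ℕ, n ≠ 0 → v n = 1) →
        Bd L v t N S → v (algebraMap L Ω φ) ≤ (v (aeval t Q) * S) ^ r := by
  classical
  have hQ : Q ≠ 0 := fun h => by
    rw [h, natDegree_zero] at h1
    omega
  let L' := Q.SplittingField
  have hs : (Q.map (algebraMap L L')).Splits := SplittingField.splits Q
  have hQ' : Q.map (algebraMap L L') ≠ 0 := map_ne_zero hQ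
  let R : Multiset L' := (Q.map (algebraMap L L')).roots
  have hR : R.card = Q.natDegree := by rw [← hs.natDegree_eq_card_roots, natDegree_map]
  obtain ⟨P, hP1, hP2, hP3⟩ := exists_pairs N
    (R.map some + Multiset.replicate (2 * N - Q.natDegree) none) (by simp [hR]; omega) fun a => by
      rcases a with _ | a
      · rw [Multiset.count_add, Multiset.count_replicate_self,
          Multiset.count_eq_zero_of_notMem (by simp)]
        omega
      · rw [Multiset.count_add, Multiset.count_map_eq_count' _ _ (Option.some_injective _),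
          Multiset.count_replicate, if_neg (by simp), add_zero, count_roots]
        by_contra hcon
        push Not at hcon
        have hi : IsIntegral L a := Algebra.IsIntegral.isIntegral a
        refine h3 (minpoly L a) (minpoly.irreducible hi) ?_
        have h4 : ∀ j ≤ N + 1, ∀ q : L[X], q ≠ 0 → j ≤ rootMultiplicity a (q.map (algebraMap L L')) →
            minpoly L a ^ j ∣ q := by
          intro j
          induction j with
          | zero => simp
          | succ j ih =>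
            intro hj q hq hm
            have hq' : q.map (algebraMap L L') ≠ 0 := map_ne_zero hq
            obtain ⟨q₁, rfl⟩ : minpoly L a ∣ q := minpoly.dvd L a (by
              rw [← eval_map_algebraMap]
              exact (rootMultiplicity_pos hq').1 (by omega))
            have h5 : rootMultiplicity a ((minpoly L a).map (algebraMap L L')) ≤ 1 :=
              rootMultiplicity_le_one_of_separable (minpoly.irreducible hi).separable.map a
            rw [Polynomial.map_mul] at hm hq'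
            rw [rootMultiplicity_mul hq'] at hm
            rw [pow_succ']
            exact mul_dvd_mul_left _ (ih (by omega) q₁ (right_ne_zero_of_mul hq) (by omega))
        exact h4 _ le_rfl Q hQ hcon
  let φ₀ : L' := algebraMap L L' Q.leadingCoeff * (P.map br).prod
  have hφ₀ : φ₀ ≠ 0 := mul_ne_zero (by simpa using hQ) (Multiset.prod_ne_zero fun h => by
    obtain ⟨p, hp, h⟩ := Multiset.mem_map.1 h
    exact br_ne (hP3 p hp) h)
  have : IsGalois L L' := {}
  refine ⟨Fintype.card (L' ≃ₐ[L] L'), Fintype.card_pos, Algebra.norm L φ₀,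
    Algebra.norm_ne_zero_iff.2 hφ₀, ?_⟩
  intro Ω Γ _ _ _ _ v t S ht hq hB
  have key : ∀ ψ : L' →ₐ[L] Ω, v (ψ φ₀) ≤ v (aeval t Q) * S := fun ψ => by
    have h4 : ∀ a, 1 ≤ S * v (t - ψ a) ^ N := fun a => by
      have hi : IsIntegral L a := Algebra.IsIntegral.isIntegral a
      refine hB.one_le_root hq (p := minpoly L a) (fun h => ht ⟨_, minpoly.ne_zero hi, h⟩) ?_
      rw [aeval_algHom_apply, minpoly.aeval, map_zero]
    have h5 := prod_br_le h4 hN P
    have h6 : aeval t Q = algebraMap L Ω Q.leadingCoeff * (R.map fun a => t - ψ a).prod := by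
      have h7 := congrArg (eval₂ (ψ : L' →+* Ω) t) hs.eq_prod_roots
      rw [eval₂_map, eval₂_mul, eval₂_C, eval₂_multiset_prod, Multiset.map_map, leadingCoeff_map]
        at h7
      rw [aeval_def, ← ψ.comp_algebraMap, h7]
      simp [R]
    rw [hP2, hP1, Multiset.map_add, Multiset.prod_add, Multiset.map_map, Multiset.map_replicate]
      at h5
    simp only [lf, Multiset.prod_replicate, one_pow, mul_one, Function.comp_def, ← mul_pow] at h5
    have h8 := le_of_pow_le_pow_left₀ hN zero_le h5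
    rw [h6, map_mul, map_mul, map_mul, ψ.commutes, mul_assoc, mul_comm _ S]
    exact mul_le_mul_right h8 _
  let ψ₀ : L' →ₐ[L] Ω := IsAlgClosed.lift
  rw [← ψ₀.commutes, Algebra.norm_eq_prod_automorphisms, map_prod, map_prod, ← Finset.card_univ,
    ← Finset.prod_const]
  exact Finset.prod_le_prod' fun σ _ => key (ψ₀.comp σ)

end inv

end Crest.Agent.X262.Rl57
private theorem rz_e51588b114 : type_of% @_root_.Crest.Agent.X262.Rl57.br.eq_1 := @_root_.Crest.Agent.X262.Rl57.br.eq_1 -- L148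
private theorem rz_f9861dd608 : type_of% @_root_.Crest.Agent.X262.Rl57.lf.eq_1 := @_root_.Crest.Agent.X262.Rl57.lf.eq_1 -- L143
end

-- ▼ part X262/Rl57/Der
section

/-!
# Row 262, RL (helper57), part 1: the ruled lemma for a derivation

`F = L(t)`, `δ ≠ 0` a derivation of `F / L`, `g` a rational section of `N K` (in the frame of `δ`)
without zeros and with poles of order `≤ N` on the projective line over `L`.

* `exists_inv_der` : there is `φ ∈ L`, `φ ≠ 0`, with `v φ * v g ^ r ≤ S ^ r` for every valuation `v`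
  of `F` with `v (δ f) ^ N ≤ S * v f ^ N` for all `f`.
-/

set_option autoImplicit false

open Polynomial WithZero IntermediateField IsDedekindDomain

namespace Crest.Agent.X262.Rl57

variable {L F : Type*} [Field L] [Field F] [Algebra L F] {t : F}

theorem der_aeval (δ : Derivation L F F) (t : F) (p : L[X]) :
    δ (aeval t p) = aeval t (derivative p) * δ t := by
  rw [Derivation.map_aeval, smul_eq_mul]

theorem exists_div (htop : L⟮t⟯ = ⊤) (f : F) : ∃ p q : L[X], f = aeval t p / aeval t q :=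
  (mem_adjoin_simple_iff L f).1 (htop ▸ mem_top)

theorem der_t_ne (htop : L⟮t⟯ = ⊤) {δ : Derivation L F F} (hδ : δ ≠ 0) : δ t ≠ 0 := fun h =>
  hδ (Derivation.ext fun f => by
    obtain ⟨p, q, rfl⟩ := exists_div htop f
    simp [Derivation.leibniz_div, h])

theorem inv_top (htop : L⟮t⟯ = ⊤) : L⟮t⁻¹⟯ = ⊤ := by
  rw [eq_top_iff, ← htop, adjoin_simple_le_iff]
  simpa using inv_mem (mem_adjoin_simple_self L t⁻¹)

theorem inv_tr (ht : Transcendental L t) : Transcendental L t⁻¹ := fun h => ht (by simpa using h.inv)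

/-- the valuations of the finite places -/
theorem exists_vals (ht : Transcendental L t) (htop : L⟮t⟯ = ⊤) :
    ∃ w : ∀ p : L[X], Irreducible p → Valuation F ℤᵐ⁰,
      (∀ p hp (q : L[X]), w p hp (aeval t q) ≤ 1) ∧ (∀ p hp, w p hp (aeval t p) = exp (-1)) ∧
      (∀ p hp q, ¬ p ∣ q → w p hp (aeval t q) = 1) ∧
      ∀ x, (∀ p hp, w p hp x ≤ 1) → ∃ q : L[X], aeval t q = x := by
  let _ : Algebra L[X] F := (aeval t : L[X] →ₐ[L] F).toRingHom.toAlgebra
  have he : ∀ q : L[X], algebraMap L[X] F q = aeval t q := fun _ => rfl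
  have hi : Function.Injective (algebraMap L[X] F) := transcendental_iff_injective.1 ht
  have : FaithfulSMul L[X] F := (faithfulSMul_iff_algebraMap_injective _ _).2 hi
  have : IsFractionRing L[X] F := IsFractionRing.of_field _ _ fun z => exists_div htop z
  let P : ∀ p : L[X], Irreducible p → HeightOneSpectrum L[X] := fun p hp =>
    ⟨Ideal.span {p}, (Ideal.span_singleton_prime hp.ne_zero).2 hp.prime, by simpa using hp.ne_zero⟩
  refine ⟨fun p hp => (P p hp).valuation F, fun p hp q => (P p hp).valuation_le_one q,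
    fun p hp => ?_, fun p hp q hq => ?_, fun x hx => ?_⟩
  · rw [← he, HeightOneSpectrum.valuation_of_algebraMap]
    exact (P p hp).intValuation_singleton hp.ne_zero rfl
  · refine le_antisymm ((P p hp).valuation_le_one q) (not_lt.1 fun h => hq ?_)
    rw [← he, HeightOneSpectrum.valuation_lt_one_iff_mem] at h
    exact Ideal.mem_span_singleton.1 h
  · refine HeightOneSpectrum.mem_integers_of_valuation_le_one F x fun v => ?_
    obtain ⟨p, hp⟩ := (IsPrincipalIdealRing.principal v.asIdeal).principal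
    have h0 : p ≠ 0 := fun h => v.ne_bot (by rw [hp, h]; simp)
    have h1 : Irreducible p := ((Ideal.span_singleton_prime h0).1
      ((show v.asIdeal = Ideal.span {p} from hp) ▸ v.isPrime)).irreducible
    have h2 : v = P p h1 := HeightOneSpectrum.ext hp
    exact h2 ▸ hx p h1

/-- the place at infinity -/
theorem exists_inf (ht : Transcendental L t) (htop : L⟮t⟯ = ⊤) : ∃ w : Valuation F ℤᵐ⁰,
    w t⁻¹ = exp (-1) ∧ ∀ q : L[X], q ≠ 0 → w (aeval t q) = exp (q.natDegree : ℤ) := by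
  obtain ⟨w, -, h2, h3, -⟩ := exists_vals (inv_tr ht) (inv_top htop)
  have h0 : t ≠ 0 := fun h => ht (h ▸ isAlgebraic_zero)
  have h4 : w X irreducible_X t⁻¹ = exp (-1) := by simpa using h2 X irreducible_X
  refine ⟨w X irreducible_X, h4, fun q hq => ?_⟩
  let _ := invertibleOfNonzero h0
  have h5 := eval₂_reverse_mul_pow (algebraMap L F) t q
  rw [invOf_eq_inv, ← aeval_def, ← aeval_def] at h5
  have h6 : w X irreducible_X t = exp 1 := by
    rw [map_inv₀, exp_neg, inv_inj] at h4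
    exact h4
  rw [← h5, map_mul, h3 X irreducible_X _ (by simpa [X_dvd_iff] using hq), one_mul, map_pow, h6,
    ← exp_nsmul, nsmul_eq_mul, mul_one]

variable [CharZero L]

/-- `g` has no zeros and poles of order at most `N` as a section of `N K` -/
def Hor (δ : Derivation L F F) (N : ℕ) (g : F) : Prop :=
  ∀ (v : Valuation F ℤᵐ⁰) (π : F), (∀ c : L, v (algebraMap L F c) ≤ 1) → v π = exp (-1) →
    v (δ π) ^ N ≤ v g ∧ v g * v π ^ N ≤ v (δ π) ^ N

theorem Hor.exists_poly (ht : Transcendental L t) (htop : L⟮t⟯ = ⊤) {δ : Derivation L F F}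
    (hδ : δ ≠ 0) {N : ℕ} {g : F} (hg : g ≠ 0) (h : Hor δ N g) :
    ∃ Q : L[X], aeval t Q = δ t ^ N / g ∧ N ≤ Q.natDegree ∧ Q.natDegree ≤ 2 * N ∧
      ∀ p : L[X], Irreducible p → ¬ p ^ (N + 1) ∣ Q := by
  obtain ⟨w, h1, h2, h3, h4⟩ := exists_vals ht htop
  have hc := der_t_ne htop hδ
  have h5 : ∀ p hp, w p hp (δ t) ^ N ≤ w p hp g ∧ w p hp g * exp (-1) ^ N ≤ w p hp (δ t) ^ N := by
    intro p hp
    have h6 := h (w p hp) _ (fun c => by simpa using h1 p hp (C c)) (h2 p hp)
    have h7 : ¬ p ∣ derivative p := fun hd =>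
      hp.not_isUnit (hp.separable.isUnit_of_dvd' dvd_rfl hd)
    rwa [der_aeval, map_mul, h3 p hp _ h7, one_mul, h2] at h6
  have hv : ∀ v : Valuation F ℤᵐ⁰, 0 < v g := fun v => zero_lt_iff.2 (by simpa using hg)
  obtain ⟨Q, hQ⟩ := h4 (δ t ^ N / g) fun p hp => by
    rw [map_div₀, map_pow, div_le_one₀ (hv _)]
    exact (h5 p hp).1
  have hQ0 : Q ≠ 0 := fun h0 => by
    rw [h0, map_zero] at hQ
    exact div_ne_zero (pow_ne_zero _ hc) hg hQ.symm
  obtain ⟨u, hu1, hu2⟩ := exists_inf ht htop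
  have h8 := h u t⁻¹ (fun c => by
    rcases eq_or_ne c 0 with rfl | h0
    · simp
    · simpa using (hu2 (C c) (by simpa using h0)).le) hu1
  have h9 : u (δ t⁻¹) = exp (-2) * u (δ t) := by
    rw [Derivation.leibniz_inv, smul_eq_mul, map_mul, Valuation.map_neg, map_pow, hu1, ← exp_nsmul]
    rfl
  have h10 : u (δ t) ^ N = exp (Q.natDegree : ℤ) * u g := by
    rw [← hu2 Q hQ0, hQ, map_div₀, map_pow, div_mul_cancel₀ _ (hv u).ne']
  rw [h9, mul_pow, h10, hu1, ← mul_assoc, ← exp_nsmul, ← exp_nsmul, ← exp_add, mul_comm (u g),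
    mul_le_mul_iff_left₀ (hv u), exp_le_exp, mul_le_iff_le_one_left (hv u), ← exp_zero,
    exp_le_exp] at h8
  simp only [nsmul_eq_mul] at h8
  refine ⟨Q, hQ, by omega, by omega, fun p hp ⟨q, hq⟩ => ?_⟩
  have h11 : w p hp (aeval t Q) ≤ exp (-1) ^ (N + 1) := by
    rw [hq, map_mul, map_mul, map_pow, map_pow, h2]
    exact mul_le_of_le_one_right' (h1 p hp q)
  rw [hQ, map_div₀, map_pow, div_le_iff₀ (hv _), mul_comm] at h11
  have h12 := (h5 p hp).2.trans h11
  rw [mul_le_mul_iff_right₀ (hv _), ← exp_nsmul, ← exp_nsmul, exp_le_exp] at h12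
  simp only [nsmul_eq_mul] at h12
  omega

/-- valuation rings extend to the algebraic closure -/
theorem exists_ext (V : ValuationSubring F) : ∃ W : ValuationSubring (AlgebraicClosure F),
    ∀ x y : F, W.valuation (algebraMap F _ x) ≤ W.valuation (algebraMap F _ y) ↔
      V.valuation x ≤ V.valuation y := by
  obtain ⟨W, hW⟩ := (LocalSubring.map (algebraMap F (AlgebraicClosure F))
    V.toLocalSubring).exists_le_valuationSubring
  have h1 : W.comap (algebraMap F (AlgebraicClosure F)) = V := by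
    have h2 : V ≤ W.comap (algebraMap F (AlgebraicClosure F)) := fun x hx => hW.1 ⟨x, hx, rfl⟩
    refine le_antisymm (fun x hx => ?_) h2
    by_contra hxV
    have h0 : x ≠ 0 := fun h => hxV (h ▸ zero_mem _)
    have h3 : x⁻¹ ∈ V := (V.mem_or_inv_mem x).resolve_left hxV
    let y : (LocalSubring.map (algebraMap F (AlgebraicClosure F)) V.toLocalSubring).toSubring :=
      ⟨algebraMap F _ x⁻¹, x⁻¹, h3, rfl⟩
    have h4 : IsUnit (Subring.inclusion hW.1 y) :=
      IsUnit.of_mul_eq_one ⟨algebraMap F _ x, hx⟩ (Subtype.ext (by simp [y, h0]))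
    obtain ⟨⟨_, z, hz, rfl⟩, h5⟩ := (hW.2.map_nonunit y h4).exists_right_inv
    have h6 : x⁻¹ * z = 1 := (algebraMap F (AlgebraicClosure F)).injective (by
      simpa [y] using congrArg Subtype.val h5)
    exact hxV ((inv_mul_eq_one₀ h0).1 h6 ▸ hz)
  refine ⟨W, fun x y => ?_⟩
  rcases eq_or_ne y 0 with rfl | hy
  · simp
  · rw [← div_le_one₀ (zero_lt_iff.2 (by simpa using hy)), ← div_le_one₀ (a := V.valuation x)
      (zero_lt_iff.2 (by simpa using hy)), ← map_div₀, ← map_div₀, ← map_div₀,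
      W.valuation_le_one_iff, V.valuation_le_one_iff, ← h1]
    rfl

/-- **the ruled lemma for a derivation** -/
theorem exists_inv_der (ht : Transcendental L t) (htop : L⟮t⟯ = ⊤) {δ : Derivation L F F}
    (hδ : δ ≠ 0) {N : ℕ} (hN : N ≠ 0) {g : F} (hg : g ≠ 0) (h : Hor δ N g) :
    ∃ r : ℕ, 0 < r ∧ ∃ φ : L, φ ≠ 0 ∧ ∀ (V : ValuationSubring F) (s : F),
      (∀ n : ℕ, n ≠ 0 → V.valuation n = 1) →
      (∀ f, V.valuation (δ f) ^ N ≤ V.valuation s * V.valuation f ^ N) →
      V.valuation (algebraMap L F φ) * V.valuation g ^ r ≤ V.valuation s ^ r := by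
  obtain ⟨Q, h1, h2, h3, h4⟩ := h.exists_poly ht htop hδ hg
  obtain ⟨r, hr, φ, hφ, h5⟩ := exists_inv hN h2 h3 h4
  refine ⟨r, hr, φ, hφ, fun V s hq hs => ?_⟩
  obtain ⟨W, hW⟩ := exists_ext V
  have hc := der_t_ne htop hδ
  let j := algebraMap F (AlgebraicClosure F)
  have hj : ∀ p : L[X], aeval (j t) p = j (aeval t p) := fun p => aeval_algebraMap_apply _ t p
  have h6 := h5 (AlgebraicClosure F) _ W.valuation (j t) (W.valuation (j (s / δ t ^ N)))
    ((transcendental_algebraMap_iff j.injective).2 ht) (fun n hn => by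
      rw [← map_natCast j]
      refine le_antisymm ?_ ?_
      · simp
      · simpa using (hW 1 n).2 (by simpa using (hq n hn).ge)) fun p => by
      rw [hj, hj, ← map_pow W.valuation, ← map_pow W.valuation, ← map_pow j, ← map_pow j,
        ← map_mul W.valuation, ← map_mul j, hW, map_mul, map_div₀, div_mul_eq_mul_div,
        le_div_iff₀ (zero_lt_iff.2 (by simpa using fun h => absurd h hc)),
        ← map_mul V.valuation, ← mul_pow, ← der_aeval, map_pow, map_pow]
      exact hs _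
  rw [hj, h1, IsScalarTower.algebraMap_apply L F, ← map_mul W.valuation, ← map_mul j,
    ← map_pow W.valuation, ← map_pow j, hW,
    show δ t ^ N / g * (s / δ t ^ N) = s / g by field_simp, map_pow, map_div₀, div_pow,
    le_div_iff₀ (zero_lt_iff.2 (by simpa using fun h => absurd h hg))] at h6
  exact h6

end Crest.Agent.X262.Rl57
end

-- ▼ part X262/Rl57/Jac
section

/-!
# Row 262, RL (helper57), part 2: the ruled lemma for canonical values

`k ≤ L ≤ F`, `F = L(t)`; `b`, `b'` bases of differentials of `L`, `F` over `k`.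

* `LKv v b g` : `g` is the value of a generator of the logarithmic canonical class at `v`;
* `lKv_of_kv` : at a divisorial valuation `LKv = Kv * exp 1`;
* `exists_rel` : the derivation `δ` of `F / L` with `jb b' (f, a) = δ f * jb b a`;
* `kv_hor` : at a horizontal valuation the canonical value is `v (δ π)`;
* `rl_val` : the ruled lemma.
-/

set_option autoImplicit false
set_option linter.unusedSectionVars false

open WithZero IntermediateField Module
open scoped KaehlerDifferential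

namespace Crest.Agent.X262.Rl57

open Crest.Agent.X277 Crest.Agent.X277.Jet Crest.Agent.X262.Wr72
open Crest.Agent.R276 Crest.Agent.R276.FKDefs_779 Crest.Agent.R276.DivVal_858

section Log

variable {k K ι Γ : Type*} [Field k] [Field K] [Algebra k K] [Fintype ι] [DecidableEq ι]
  [LinearOrderedCommGroupWithZero Γ]

/-- `g` is the largest value of a logarithmic Jacobian -/
def LKv (v : Valuation K Γ) (b : Basis ι K Ω[K⁄k]) (g : Γ) : Prop :=
  (∃ z : ι → K, (∀ i, z i ≠ 0) ∧ jb b z ≠ 0 ∧ v (jb b z) = g * ∏ i, v (z i)) ∧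
    ∀ z : ι → K, v (jb b z) ≤ g * ∏ i, v (z i)

theorem v_det_le' {v : Valuation K Γ} {M : Matrix ι ι K} {c : ι → Γ}
    (h : ∀ i j, v (M i j) ≤ c j) : v M.det ≤ ∏ j, c j := by
  rw [Matrix.det_apply]
  refine v.map_sum_le fun s _ => ?_
  have h1 : v (Equiv.Perm.sign s • ∏ i, M (s i) i) = v (∏ i, M (s i) i) := by
    rcases Int.units_eq_one_or (Equiv.Perm.sign s) with h | h <;> simp [h]
  rw [h1, map_prod]
  exact Finset.prod_le_prod' fun i _ => h _ _

theorem det_der' (X : Fr k K ι) (δ : ι → Derivation k K K) (z : ι → K) :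
    (Matrix.of fun i j => δ i (z j)).det = (Matrix.of fun i j => δ i (X.y j)).det * X.jc z := by
  unfold Fr.jc
  rw [← Matrix.det_mul]
  congr 1
  ext i j
  rw [Matrix.mul_apply, Matrix.of_apply, X.expand (δ i)]
  rfl

variable {v : Valuation K ℤᵐ⁰} {π : K}

theorem ne_of_unif (hπ : v π = exp (-1)) : π ≠ 0 := fun h => by
  rw [h, map_zero] at hπ
  exact exp_ne_zero hπ.symm

theorem v_int_le (v : Valuation K Γ) (m : ℤ) : v (m : K) ≤ 1 :=
  intCast_mem v.valuationSubring m

/-- a regular derivation which is logarithmic along the uniformiser is logarithmic -/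
theorem log_le (hπ : v π = exp (-1)) (D : Derivation k K K) (hD : ∀ x, v x ≤ 1 → v (D x) ≤ 1)
    (hDπ : v (D π) ≤ v π) (f : K) : v (D f) ≤ v f := by
  rcases eq_or_ne f 0 with rfl | hf
  · simp
  have h0 := ne_of_unif hπ
  obtain ⟨m, hm⟩ : ∃ m : ℤ, v f = exp m := ⟨_, (exp_log (by simpa using hf)).symm⟩
  have hu : v (f * π ^ m) = 1 := by
    rw [map_mul, map_zpow₀, hm, hπ, ← exp_zsmul, ← exp_add]
    simp
  have e : D f = (D (f * π ^ m) * (f * π ^ m)⁻¹ - m * (D π * π⁻¹)) * f := by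
    rw [Derivation.leibniz, Derivation.leibniz_zpow]
    simp only [smul_eq_mul, zsmul_eq_mul]
    rw [zpow_sub_one₀ h0]
    have := zpow_ne_zero m h0
    field_simp
    ring
  rw [e, map_mul]
  refine mul_le_of_le_one_left' ((v.map_sub _ _).trans (max_le ?_ ?_))
  · rw [map_mul, map_inv₀, hu, inv_one, mul_one]
    exact hD _ hu.le
  · rw [map_mul, map_mul, map_inv₀]
    exact mul_le_one' (v_int_le v m) (mul_inv_le_one_of_le₀ hDπ zero_le)

/-- the logarithmic Jacobian inequality -/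
theorem jc_le {Z : Fr k K ι} (hZ : FAt v Z) {i₀ : ι} (hπ : v (Z.y i₀) = exp (-1)) (z : ι → K) :
    v (Z.jc z) ≤ exp 1 * ∏ i, v (z i) := by
  let δ : ι → Derivation k K K := fun i => (if i = i₀ then Z.y i₀ else 1) • Z.D i
  have h1 : (Matrix.of fun i j => δ i (Z.y j)) =
      Matrix.diagonal fun i => if i = i₀ then Z.y i₀ else 1 := by
    ext i j
    simp only [δ, Matrix.of_apply, Derivation.smul_apply, Z.dual, smul_eq_mul,
      Matrix.diagonal_apply, mul_ite, mul_one, mul_zero]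
  have h2 := det_der' Z δ z
  rw [h1, Matrix.det_diagonal, Finset.prod_ite_eq', if_pos (Finset.mem_univ _)] at h2
  have h3 : v (Z.y i₀ * Z.jc z) ≤ ∏ i, v (z i) := by
    rw [← h2]
    refine v_det_le' fun i j => log_le hπ (δ i) (fun a ha => ?_) ?_ (z j)
    · rw [Derivation.smul_apply, smul_eq_mul, map_mul]
      refine mul_le_one' ?_ (hZ.2 i a ha)
      split_ifs
      · exact hZ.1 i₀
      · exact (map_one v).le
    · simp only [δ, Derivation.smul_apply, Z.dual, smul_eq_mul]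
      split_ifs <;> simp
  rw [map_mul, hπ] at h3
  calc v (Z.jc z) = exp 1 * (exp (-1) * v (Z.jc z)) := by
        rw [← mul_assoc, ← exp_add]
        simp
    _ ≤ _ := mul_le_mul_right h3 _

theorem kv_fr {v : Valuation K Γ} {Z : Fr k K ι} (hZ : FAt v Z) (b : Basis ι K Ω[K⁄k]) :
    Kv v b (v (jb b Z.y)) := by
  have h := (hZ.kv Z).change b
  rwa [← map_mul, ← jb_basis, ← jb_change] at h

theorem jb_fr (Z : Fr k K ι) (b : Basis ι K Ω[K⁄k]) (z : ι → K) :
    jb b z = jb b Z.y * Z.jc z := by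
  rw [jb_change Z.basis b z, jb_change Z.basis b Z.y, jb_basis, jb_basis, Z.jc_self, mul_one]

theorem jb_fr_ne (Z : Fr k K ι) (b : Basis ι K Ω[K⁄k]) : jb b Z.y ≠ 0 := by
  rw [jb_change Z.basis b Z.y, jb_basis, Z.jc_self, mul_one]
  exact (b.isUnit_det Z.basis).ne_zero

theorem lKv_fr {Z : Fr k K ι} (hZ : FAt v Z) {i₀ : ι} (hπ : v (Z.y i₀) = exp (-1))
    (hu : ∀ i, i ≠ i₀ → v (Z.y i) = 1) (b : Basis ι K Ω[K⁄k]) :
    LKv v b (v (jb b Z.y) * exp 1) := by
  refine ⟨⟨Z.y, y_ne Z, jb_fr_ne Z b, ?_⟩, fun z => ?_⟩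
  · rw [Finset.prod_eq_single i₀ (fun i _ h => hu i h) (by simp), hπ, mul_assoc, ← exp_add]
    simp
  · rw [jb_fr Z b z, map_mul, mul_assoc]
    exact mul_le_mul_right (jc_le hZ hπ z) _

theorem isUnif_of (hπ : v π = exp (-1)) : IsUnif v.valuationSubring π := by
  have e := Valuation.isEquiv_valuation_valuationSubring v
  refine ⟨?_, ne_of_unif hπ, fun y hy => (e y π).1 ?_⟩
  · rw [← e.lt_one_iff_lt_one, hπ, ← exp_zero, exp_lt_exp]
    norm_num
  · rw [← e.lt_one_iff_lt_one] at hy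
    rcases eq_or_ne y 0 with rfl | h
    · simp
    · rw [← exp_log (x := v y) (by simpa using h), ← exp_zero, exp_lt_exp] at hy
      rw [← exp_log (x := v y) (by simpa using h), hπ, exp_le_exp]
      omega

theorem eq_of_isUnif (hπ : v π = exp (-1)) {s : K} (hs : IsUnif v.valuationSubring s) :
    v s = exp (-1) := by
  have e := Valuation.isEquiv_valuation_valuationSubring v
  have h := isUnif_of hπ
  exact hπ ▸ le_antisymm ((e _ _).2 (h.max _ hs.lt)) ((e _ _).2 (hs.max _ h.lt))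

/-- at a divisorial valuation the logarithmic canonical value is `Kv * exp 1` -/
theorem lKv_of_kv [CharZero k] [Algebra.EssFiniteType k K] {n : ℕ} {b : Basis (Fin n) K Ω[K⁄k]}
    (hv : IsDiv k n v.valuationSubring) (hπ : v π = exp (-1)) {g : ℤᵐ⁰} (h : Kv v b g) :
    LKv v b (g * exp 1) := by
  have := Module.Finite.of_basis b
  obtain ⟨Z, hZ, i₀, h1, h2⟩ := exists_at (E := k) (K := K) (n := n)
    (by rw [trdeg_eq, finrank_eq_card_basis b, Fintype.card_fin]) hv
  have hZ' : FAt v Z := ⟨hZ.1, hZ.2⟩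
  rw [h.unique (kv_fr hZ' b)]
  refine lKv_fr hZ' (eq_of_isUnif hπ h1) (fun i hi => ?_) b
  have h3 := h2.2 (MvPolynomial.X ⟨i, hi⟩) (MvPolynomial.X_ne_zero _)
  rw [MvPolynomial.aeval_X] at h3
  exact (Valuation.isEquiv_valuation_valuationSubring v).eq_one_iff_eq_one.2 h3

end Log

section Rel

variable {k L F : Type*} [Field k] [Field L] [Field F] [Algebra k L] [Algebra k F] [Algebra L F]
  [IsScalarTower k L F] {n : ℕ}

/-- `δ` is the frame of `F / L` induced by the bases `b`, `b'` -/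
def Rel (b : Basis (Fin n) L Ω[L⁄k]) (b' : Basis (Fin (n + 1)) F Ω[F⁄k])
    (δ : Derivation L F F) : Prop :=
  ∀ (f : F) (a : Fin n → L),
    jb b' (Fin.cons f fun i => algebraMap L F (a i)) = δ f * algebraMap L F (jb b a)

variable [CharZero k] {b : Basis (Fin n) L Ω[L⁄k]} {b' : Basis (Fin (n + 1)) F Ω[F⁄k]}
  {δ : Derivation L F F}

theorem exists_fr' [Algebra.EssFiniteType k L] (b : Basis (Fin n) L Ω[L⁄k]) :
    Nonempty (Fr k L (Fin n)) := by
  have h := exists_fr k L
  rwa [finrank_eq_card_basis b, Fintype.card_fin] at h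

theorem exists_rel [Algebra.EssFiniteType k L] (b : Basis (Fin n) L Ω[L⁄k])
    (b' : Basis (Fin (n + 1)) F Ω[F⁄k]) (Z : Fr L F Unit) :
    ∃ δ : Derivation L F F, δ ≠ 0 ∧ Rel b b' δ := by
  obtain ⟨Y⟩ := exists_fr' b
  obtain ⟨X, hX⟩ := exists_tower Z Y
  let e : Fin (n + 1) ≃ Unit ⊕ Fin n :=
    (finSuccEquiv n).trans ((Equiv.optionEquivSumPUnit _).trans (Equiv.sumComm _ _))
  have h1 := jb_fr_ne (X.reindex e) b'
  have h2 : algebraMap L F (jb b Y.y) ≠ 0 := (map_ne_zero _).2 (jb_fr_ne Y b)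
  refine ⟨(jb b' (X.reindex e).y / algebraMap L F (jb b Y.y)) • Z.D (), fun h => ?_,
    fun f a => ?_⟩
  · have h3 := congrArg (fun d : Derivation L F F => d (Z.y ())) h
    simp [Z.dual, h1, h2] at h3
  · have h3 : (X.reindex e).jc (Fin.cons f fun i => algebraMap L F (a i)) =
        X.jc (Sum.elim (fun _ => f) fun i => algebraMap L F (a i)) := by
      unfold Fr.jc
      rw [← Matrix.det_submatrix_equiv_self e]
      congr 1
      ext i j
      refine Fin.cases ?_ (fun j => ?_) j <;> rfl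
    rw [jb_fr (X.reindex e), h3, hX.jc, jc_unique, jb_fr Y b a, map_mul, Derivation.smul_apply,
      smul_eq_mul]
    field_simp

/-- at a horizontal valuation the canonical value is that of the derivative of a uniformiser -/
theorem kv_hor [Algebra.EssFiniteType k L] [Algebra.EssFiniteType k F] (h : Rel b b' δ)
    {v : Valuation F ℤᵐ⁰} (hv : ∀ c : L, v (algebraMap L F c) ≤ 1) {π : F}
    (hπ : v π = exp (-1)) : Kv v b' (v (δ π)) := by
  have := Module.Finite.of_basis b'
  have e := Valuation.isEquiv_valuation_valuationSubring v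
  have h1 : ∀ c : L, c ≠ 0 → v (algebraMap L F c) = 1 := fun c hc =>
    le_antisymm (hv c) (by
      have h2 := hv c⁻¹
      rwa [map_inv₀, map_inv₀, inv_le_one₀ (zero_lt_iff.2 (by simpa using hc))] at h2)
  obtain ⟨Y⟩ := exists_fr' b
  obtain ⟨Z, hZ, h2⟩ := at_of_unif (E := k) (K := F) (m := n) (R := v.valuationSubring)
    (by rw [trdeg_eq, finrank_eq_card_basis b', Fintype.card_fin])
    (fun c => by rw [IsScalarTower.algebraMap_apply k L F]; exact hv _)
    (x := fun i => algebraMap L F (Y.y i)) ⟨fun i => hv _, fun p hp => by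
      rw [← e.eq_one_iff_eq_one]
      exact (congrArg v (MvPolynomial.aeval_algebraMap_apply F Y.y p)).trans
        (h1 _ fun h0 => hp (algebraicIndependent_iff.1 Y.ai p h0))⟩ (isUnif_of hπ)
  have h3 := kv_fr (v := v) (Z := Z) ⟨h2.1, h2.2⟩ b'
  rwa [hZ, h, map_mul, h1 _ (jb_fr_ne Y b), mul_one] at h3

/-- the relative logarithmic inequality -/
theorem Rel.le {Γ : Type*} [LinearOrderedCommGroupWithZero Γ] (h : Rel b b' δ)
    {v : Valuation F Γ} {gF gL : Γ} (hF : LKv v b' gF)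
    (hL : LKv (v.comap (algebraMap L F)) b gL) (f : F) : v (δ f) * gL ≤ gF * v f := by
  obtain ⟨z, h1, -, h2⟩ := hL.1
  have h3 := hF.2 (Fin.cons f fun i => algebraMap L F (z i))
  rw [h, map_mul, Fin.prod_univ_succ] at h3
  simp only [Fin.cons_zero, Fin.cons_succ, Valuation.comap_apply] at h2 h3
  rw [h2, ← mul_assoc, ← mul_assoc] at h3
  exact (mul_le_mul_iff_left₀ (zero_lt_iff.2 (Finset.prod_ne_zero_iff.2 fun i _ => by
    simpa using h1 i))).1 h3

theorem LKv.exists_eq {K ι Γ : Type*} [Field K] [Algebra k K] [Fintype ι] [DecidableEq ι]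
    [LinearOrderedCommGroupWithZero Γ] {v : Valuation K Γ} {b : Basis ι K Ω[K⁄k]} {g : Γ}
    (h : LKv v b g) : ∃ s : K, s ≠ 0 ∧ v s = g := by
  obtain ⟨z, h1, h2, h3⟩ := h.1
  have h4 : ∏ i, z i ≠ 0 := Finset.prod_ne_zero_iff.2 fun i _ => h1 i
  refine ⟨jb b z / ∏ i, z i, div_ne_zero h2 h4, ?_⟩
  rw [map_div₀, h3, ← map_prod, mul_div_cancel_right₀ _ (v.ne_zero_iff.2 h4)]

/-- **the ruled lemma**, in terms of values -/
theorem rl_val [Algebra.EssFiniteType k L] [Algebra.EssFiniteType k F]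
    (b : Basis (Fin n) L Ω[L⁄k]) (b' : Basis (Fin (n + 1)) F Ω[F⁄k]) {t : F}
    (ht : Transcendental L t) (htop : L⟮t⟯ = ⊤) (h0 : δ ≠ 0) (h : Rel b b' δ) {N : ℕ}
    (hN : N ≠ 0) {g : F} (hg : g ≠ 0) (hor : Hor δ N g) :
    ∃ r : ℕ, 0 < r ∧ ∃ φ : L, φ ≠ 0 ∧ ∀ (v : Valuation F ℤᵐ⁰) (gF gL : ℤᵐ⁰),
      (∀ c : k, v (algebraMap k F c) ≤ 1) → LKv v b' gF → LKv (v.comap (algebraMap L F)) b gL →
      v (algebraMap L F φ) * v g ^ r * gL ^ (N * r) ≤ gF ^ (N * r) := by
  have : CharZero L := charZero_of_injective_algebraMap (algebraMap k L).injective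
  obtain ⟨r, hr, φ, hφ, h1⟩ := exists_inv_der ht htop h0 hN hg hor
  refine ⟨r, hr, φ, hφ, fun v gF gL hv hF hL => ?_⟩
  have e := Valuation.isEquiv_valuation_valuationSubring v
  obtain ⟨s, -, rfl⟩ := hF.exists_eq
  obtain ⟨u, hu, rfl⟩ := hL.exists_eq
  have hu' : 0 < v (algebraMap L F u) := zero_lt_iff.2 (by simpa using hu)
  have h2 := h1 v.valuationSubring ((s / algebraMap L F u) ^ N) (fun m hm => ?_) fun f => ?_
  · rw [← map_pow, ← map_pow, ← map_mul, ← e, map_mul, map_pow, map_pow, map_pow, map_div₀,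
      ← pow_mul, div_pow, le_div_iff₀ (pow_pos hu' _)] at h2
    exact h2
  · rw [← e.eq_one_iff_eq_one]
    refine le_antisymm (natCast_mem v.valuationSubring m) ?_
    have h3 := hv (m : k)⁻¹
    have : CharZero F := charZero_of_injective_algebraMap (algebraMap k F).injective
    rwa [map_inv₀, map_inv₀, map_natCast, inv_le_one₀ (zero_lt_iff.2 (by simpa using hm))] at h3
  · rw [map_pow, ← mul_pow, ← map_mul]
    refine pow_le_pow_left' ((e _ _).1 ?_) N
    rw [map_mul, map_div₀, div_mul_eq_mul_div]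
    exact (le_div_iff₀ hu').2 (h.le hF hL f)

end Rel

end Crest.Agent.X262.Rl57
end

-- ▼ part X262/Rl57/BD
section

/-!
# Row 262, RL (helper57), part 3: the ruled lemma for b-divisors

`k ≤ L ≤ F = L(t)`, `G + D ∼ pb A`, `D` free, the horizontal coefficients of `G / N - K` lie in
`[0, 1]`.  Then a multiple of `A` has a member `R A - pr φ` which satisfies the lower bound of the
canonical bundle formula at every divisorial valuation.

* `exists_ram`, `od_pb` : ramification of a vertical divisorial valuation;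
* `rl_kv` : model free, any ground field of characteristic zero;
* `rl` : on smooth models over `ℂ`.
-/

set_option autoImplicit false
set_option linter.unusedSectionVars false

open WithZero IntermediateField Module
open scoped KaehlerDifferential

namespace Crest.Agent.X262.Rl57

open Crest.Agent.X277 Crest.Agent.X277.BD Crest.Agent.X277.Pst Crest.Agent.X277.Jet
open Crest.Agent.X277.Neg (nv nv_triv IsNv isNv_nv)
open Crest.Agent.X262.Wr72 (Kv jb)
open Crest.Agent.X262.Geo (od)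
open Crest.Agent.X262.Loc (Pt rzP ordP kC)

variable {k L F : Type} [Field k] [Field L] [Field F] [Algebra k L] [Algebra k F] [Algebra L F]
  [IsScalarTower k L F] [CharZero k]

/-- a free class has a section which generates at finitely many given valuation rings -/
theorem exists_gen_fin {D : BD k F} (hD : D.Free) {ι : Type*} [Finite ι] (V : ι → RZ k F) :
    ∃ s ∈ D.Sec, s ≠ 0 ∧ ∀ i, (V i).v s = D.val (V i) := by
  let W : Option ι → RZ k F := fun o => o.elim (RZ.top k F) V
  let p : Option ι → Submodule k D.Sec := fun o =>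
    { carrier := {s | (W o).v s < D.val (W o)}
      add_mem' := fun ha hb => (W o).v.map_add_lt ha hb
      zero_mem' := by simpa using D.val_pos _
      smul_mem' := fun c s hs => by
        change (W o).v (c • (s : F)) < _
        rw [Algebra.smul_def, map_mul]
        exact (mul_le_of_le_one_left' (RZ.le_one_iff.2 ((W o).2 c))).trans_lt hs }
  obtain ⟨s, hs⟩ := Submodule.exists_forall_notMem_of_forall_ne_top p fun o h => by
    obtain ⟨g, h1, h2⟩ := hD.exists_gen (W o)
    have h3 : (⟨g, h1⟩ : D.Sec) ∈ p o := h ▸ Submodule.mem_top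
    exact ne_of_lt h3 h2
  have h : ∀ o, (W o).v s = D.val (W o) := fun o => le_antisymm (s.2 _) (not_lt.1 (hs o))
  exact ⟨s, s.2, ne_of_val (h none), fun i => h (some i)⟩

theorem ord_up {v : Valuation F ℤᵐ⁰} (hL : ∀ c : L, v (algebraMap L F c) ≤ 1)
    (hk : ∀ c : k, v (algebraMap k F c) ≤ 1) (a : BD k F) : ord v hL (up L a) = ord v hk a :=
  congrArg log (vl_eq (g := a.gen (rz v hk)) ((v_gen a (rz v hk)).trans (val_up a (rz v hL)).symm))

/-- the restriction of a valuation ring to `L` -/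
abbrev rsL (L : Type) [Field L] [Algebra k L] [Algebra L F] [IsScalarTower k L F] (V : RZ k F) :
    RZ k L := cm _ (alg_ov (IsScalarTower.toAlgHom k L F)) V

variable [Algebra.EssFiniteType k L] [Algebra.EssFiniteType k F]

section Ram

variable {V : RZ k F} {w : RZ k L} {m : ℕ}

theorem ne_zero_of_ram (h : ∀ x : L, nv V (algebraMap L F x) = nv w x ^ m) : m ≠ 0 := by
  rintro rfl
  simpa using h 0

theorem rsL_eq (hV : Dvs V) (hw : Dvs w) (h : ∀ x : L, nv V (algebraMap L F x) = nv w x ^ m) :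
    rsL L V = w := Subtype.ext (ValuationSubring.ext _ _ fun x => by
  rw [← Geo.nv_le_one hw, ← pow_le_one_iff (ne_zero_of_ram h), ← h, Geo.nv_le_one hV]
  rfl)

theorem od_pb (hV : Dvs V) (hw : Dvs w) (h : ∀ x : L, nv V (algebraMap L F x) = nv w x ^ m)
    (a : BD k L) : od V (pb (IsScalarTower.toAlgHom k L F) a) = m * od w a := by
  have h1 := val_mp_gen (j := _) (h := alg_ov (IsScalarTower.toAlgHom k L F)) a V
  rw [show cm _ _ V = w from rsL_eq hV hw h] at h1
  rw [pb, Geo.od_of_gen hV h1.symm, Geo.od_of_gen hw (v_gen a w), ← nsmul_eq_mul, ← log_pow, ← h]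
  rfl

/-- a vertical divisorial valuation lies over a divisorial valuation -/
theorem exists_ram (hV : Dvs V) (h : ¬ ∀ c : L, algebraMap L F c ∈ V.1) :
    Dvs (rsL L V) ∧ ∃ m : ℕ, 0 < m ∧ ∀ x : L, nv V (algebraMap L F x) = nv (rsL L V) x ^ m := by
  have hw : Dvs (rsL L V) :=
    (R276.DivVal_858.restrict_of_ne_top trdeg_eq_dim trdeg_eq_dim hV fun h0 => h fun c => by
      have h1 : c ∈ V.1.comap (algebraMap L F) := h0 ▸ ValuationSubring.mem_top _
      exact h1).2.2.1
  obtain ⟨π, hπ⟩ := Geo.nv_unif hw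
  have h0 := ne_of_unif hπ
  have h1 : nv V (algebraMap L F π) < 1 := by
    rw [Geo.nv_lt_one hV, ← map_one V.v, ← map_one (algebraMap L F)]
    refine (v_cm_lt_iff _ (alg_ov (IsScalarTower.toAlgHom k L F))).1 ?_
    rw [map_one, ← Geo.nv_lt_one hw, hπ, ← exp_zero, exp_lt_exp]
    norm_num
  obtain ⟨e, he⟩ : ∃ e : ℤ, nv V (algebraMap L F π) = exp e :=
    ⟨_, (exp_log (by simpa using h0)).symm⟩
  rw [he, ← exp_zero, exp_lt_exp] at h1
  obtain ⟨m, rfl⟩ : ∃ m : ℕ, e = -m := ⟨(-e).toNat, by omega⟩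
  refine ⟨hw, m, by omega, fun x => ?_⟩
  rcases eq_or_ne x 0 with rfl | hx
  · rw [map_zero, map_zero, map_zero, zero_pow (by omega)]
  obtain ⟨a, ha⟩ : ∃ a : ℤ, nv (rsL L V) x = exp a := ⟨_, (exp_log (by simpa using hx)).symm⟩
  have h2 : nv V (algebraMap L F x) = nv V (algebraMap L F (π ^ (-a))) := by
    rw [Geo.nv_eq_iff hV]
    refine (v_cm_eq_iff _ (alg_ov (IsScalarTower.toAlgHom k L F))).1 ?_
    rw [← Geo.nv_eq_iff hw, map_zpow₀, hπ, ha, ← exp_zsmul]
    simp
  rw [h2, map_zpow₀, map_zpow₀, he, ha, ← exp_zsmul, ← exp_nsmul]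
  simp [mul_comm]

end Ram

variable {n : ℕ}

theorem dim_eq_one (b : Basis (Fin n) L Ω[L⁄k]) (b' : Basis (Fin (n + 1)) F Ω[F⁄k]) :
    dim L F = 1 := by
  have : CharZero L := charZero_of_injective_algebraMap (algebraMap k L).injective
  have : Algebra.EssFiniteType L F := .of_comp k L F
  have h := Loc.dim_tower k L F
  rw [dim, dim, finrank_eq_card_basis b, finrank_eq_card_basis b', Fintype.card_fin,
    Fintype.card_fin] at h
  omega

/-- sections of multiples of a free class with bounded multiplicities on the generic fibre -/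
theorem exists_spread (hd : dim L F = 1) {D : BD k F} (hD : D.Free) {T : Set (Pt L F)}
    (hT : T.Finite) : ∃ e : ℕ, ∀ j : ℕ, ∃ s ∈ (j • D).Sec, s ≠ 0 ∧ ∀ P : Pt L F,
      ordP P (up L (j • D) - pr L s) ≤ e ∧ (P ∈ T → ordP P (up L (j • D) - pr L s) = 0) := by
  have : CharZero L := charZero_of_injective_algebraMap (algebraMap k L).injective
  have : Algebra.EssFiniteType L F := .of_comp k L F
  refine ⟨(bnum [up L D]).toNat, fun j => ?_⟩
  induction j with
  | zero => exact ⟨1, by simpa using one_mem_Sec, one_ne_zero, fun P => by simp⟩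
  | succ j ih =>
    obtain ⟨s, h1, h2, h3⟩ := ih
    have h4 := (hT.union (Loc.finite_ordP hd (up L (j • D) - pr L s))).to_subtype
    obtain ⟨u, h5, h6, h7⟩ := exists_gen_fin hD
      fun P : ↥(T ∪ {P | ordP P (up L (j • D) - pr L s) ≠ 0}) => (rzP P.1).dn k
    have h8 : ∀ P ∈ T ∪ {P | ordP P (up L (j • D) - pr L s) ≠ 0}, ordP P (up L D - pr L u) = 0 :=
      fun P hP => by
        rw [map_sub, sub_eq_zero, ← exp_inj, Loc.exp_ordP_pr h6, eq_comm, Loc.eq_ordP_iff, val_up]
        exact h7 ⟨P, hP⟩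
    have h9 : 0 ≤ up L D - pr L u := sub_nonneg.2 fun V => by
      rw [val_pr h6]
      exact up_mem_Sec h5 V
    refine ⟨s * u, by rw [succ_nsmul]; exact mul_mem_Sec h1 h5, mul_ne_zero h2 h6, fun P => ?_⟩
    have e : ordP P (up L ((j + 1) • D) - pr L (s * u)) =
        ordP P (up L (j • D) - pr L s) + ordP P (up L D - pr L u) := by
      rw [← map_add, succ_nsmul, map_add, pr_mul h2 h6]
      congr 1
      abel
    rw [e]
    refine ⟨?_, fun hP => by rw [(h3 P).2 hP, h8 P (Or.inl hP), add_zero]⟩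
    by_cases hP : ordP P (up L (j • D) - pr L s) = 0
    · have h10 := Loc.ordP_le_deg hd h9 P
      have h11 : (0 : ℤ) ≤ ordP P (up L D - pr L u) := ord_nonneg h9
      have h12 := Loc.degP_pos' hd P
      have h13 : bnum [up L D - pr L u] = bnum [up L D] :=
        Lin.bnum_eq ⟨u⁻¹, inv_ne_zero h6, by rw [pr_inv, sub_eq_add_neg]⟩ []
      rw [hP, zero_add]
      have h14 := Int.self_le_toNat (bnum [up L D])
      nlinarith
    · rw [h8 P (Or.inr hP), add_zero]
      exact (h3 P).1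

/-- **the ruled lemma**, model free -/
theorem rl_kv (b : Basis (Fin n) L Ω[L⁄k]) (b' : Basis (Fin (n + 1)) F Ω[F⁄k]) {t : F}
    (ht : Transcendental L t) (htop : L⟮t⟯ = ⊤) {N : ℕ} (hN : N ≠ 0) {G D : BD k F} {A : BD k L}
    (hD : D.Free) (hl : Lin (G + D) (pb (IsScalarTower.toAlgHom k L F) A))
    (hor : ∀ (V : RZ k F) (κ : ℤ), (∀ c : L, algebraMap L F c ∈ V.1) → V.1 ≠ ⊤ →
      Kv (nv V) b' (exp κ) → N * κ ≤ od V G ∧ od V G ≤ N * (κ + 1)) :
    ∃ R : ℕ, 0 < R ∧ ∃ φ : L, φ ≠ 0 ∧ ∀ (V : RZ k F) (w : RZ k L) (m : ℕ) (κ κ' : ℤ),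
      Dvs V → Dvs w → (∀ x : L, nv V (algebraMap L F x) = nv w x ^ m) →
      Kv (nv V) b' (exp κ) → Kv (nv w) b (exp κ') →
      R * (N * (m - 1) + od V G - N * κ) ≤ m * (od w (R • A - pr k φ) - R * N * κ') := by
  have : CharZero L := charZero_of_injective_algebraMap (algebraMap k L).injective
  have : Algebra.EssFiniteType L F := .of_comp k L F
  have hd := dim_eq_one b b'
  obtain ⟨Z⟩ : Nonempty (Fr L F (Fin 1)) := hd ▸ exists_fr L F
  obtain ⟨δ, h0, hδ⟩ := exists_rel b b' (Z.reindex (Equiv.ofUnique Unit (Fin 1)))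
  obtain ⟨f, hf, hl⟩ := hl
  obtain ⟨e, he⟩ := exists_spread hd hD (Loc.finite_ordP hd (up L G - N • kC δ))
  obtain ⟨s, h1, h2, h3⟩ := he (e + 1)
  have hg : f ^ (e + 1) / s ≠ 0 := div_ne_zero (pow_ne_zero _ hf) h2
  have hpr : pr k (f ^ (e + 1) / s) = (e + 1) • (G - pb (IsScalarTower.toAlgHom k L F) A) +
      ((e + 1) • D - pr k s) := by
    rw [pr_div (pow_ne_zero _ hf) h2, pr_pow hf, eq_sub_of_add_eq' hl.symm, ← add_sub_assoc,
      ← smul_add]
    congr 2
    abel
  have hs : 0 ≤ (e + 1) • D - pr k s := sub_nonneg.2 fun V => by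
    rw [val_pr h2]
    exact h1 V
  obtain ⟨r, hr, φ, hφ, h4⟩ := rl_val b b' ht htop h0 hδ (N := (e + 1) * N) (by positivity) hg
    fun v π hv hπ => by
      have hk : ∀ c : k, v (algebraMap k F c) ≤ 1 := fun c => by
        rw [IsScalarTower.algebraMap_apply k L F]
        exact hv _
      have h5 := Geo.isNv_rz hv ⟨π, hπ⟩
      obtain ⟨P, hP⟩ := Loc.exists_pt_of_ne hd (Geo.ne_top_of_isNv h5)
      obtain rfl : v = P.v := by rw [← Geo.nv_rz hv ⟨π, hπ⟩, hP, Loc.nv_rzP]
      have h6 := Loc.v_der_unif hd h0 hπ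
      have h7 := hor (rz P.v hk) (ordP P (kC δ)) hv (Geo.ne_top_of_isNv h5 :)
        (by rw [Geo.nv_rz hk ⟨π, hπ⟩, ← h6]; exact kv_hor hδ hv hπ)
      rw [Geo.od_rz hk ⟨π, hπ⟩, ← ord_up hv hk] at h7
      have h8 := congrArg (fun a => ordP P (up L a)) hpr
      simp only [map_add, map_nsmul, map_sub, up_pr, nsmul_eq_mul,
        up_pb (IsScalarTower.toAlgHom k L F) fun _ => rfl, sub_zero] at h8
      have h9 := h3 P
      have h10 : (0 : ℤ) ≤ ordP P (up L ((e + 1) • D - pr k s)) := ord_nonneg (up_nonneg hs)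
      simp only [map_nsmul, map_sub, up_pr, nsmul_eq_mul, Set.mem_ofPred_eq] at h9 h10
      change N * ordP P (kC δ) ≤ ordP P (up L G) ∧ ordP P (up L G) ≤ _ at h7
      rw [h6, hπ, ← Loc.exp_ordP_pr hg, h8, ← exp_nsmul, ← exp_nsmul, ← exp_add, exp_le_exp,
        exp_le_exp]
      simp only [nsmul_eq_mul]
      push_cast at h9 h10 ⊢
      have h11 : (1 : ℤ) ≤ N := by exact_mod_cast Nat.pos_of_ne_zero hN
      have h12 : (0 : ℤ) ≤ e := Int.natCast_nonneg e
      refine ⟨by nlinarith [h7.1], ?_⟩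
      by_cases h13 : ordP P (up L G) - N * ordP P (kC δ) = 0
      · rw [sub_eq_zero.1 h13]
        nlinarith [h9.1]
      · rw [h9.2 h13]
        nlinarith [h7.2]
  refine ⟨(e + 1) * r, by positivity, φ, hφ, fun V w m κ κ' hV hw hm hκ hκ' => ?_⟩
  obtain ⟨π, hπ⟩ := Geo.nv_unif hV
  obtain ⟨ϖ, hϖ⟩ := Geo.nv_unif hw
  have hdv : ∀ {K : Type} [Field K] [Algebra k K] [Algebra.EssFiniteType k K] {d : ℕ}
      (c : Basis (Fin d) K Ω[K⁄k]) {U : RZ k K}, Dvs U →
      R276.FKDefs_779.IsDiv k d (nv U).valuationSubring := fun c U hU => by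
    have h5 := congrArg Subtype.val (Geo.rz_nv hU)
    have h6 : Gj.dm k _ = _ := (finrank_eq_card_basis c).trans (Fintype.card_fin _)
    exact h6 ▸ (show (nv U).valuationSubring = U.1 from h5) ▸ hU
  have h5 := lKv_of_kv (hdv b' hV) hπ hκ
  have h6 := lKv_of_kv (hdv b hw) hϖ hκ'
  have h7 : LKv ((nv V).comap (algebraMap L F)) b ((exp κ' * exp 1) ^ m) := by
    obtain ⟨⟨z, h7, h8, h9⟩, h10⟩ := h6
    simp only [LKv, Valuation.comap_apply, hm, Finset.prod_pow, ← mul_pow]
    exact ⟨⟨z, h7, h8, by rw [h9]⟩, fun z => pow_le_pow_left' (h10 z) m⟩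
  have h8 := h4 (nv V) _ _ (nv_triv V) h5 h7
  have h9 := congrArg (od V) hpr
  have h10 := Geo.od_nonneg (V := V) hs
  rw [map_add, map_nsmul, map_sub, od_pb hV hw hm, Geo.od_pr hg, nsmul_eq_mul] at h9
  rw [hm, ← exp_log (x := nv w φ) (by simpa using hφ), ← Geo.od_pr hφ,
    ← exp_log (x := nv V _) ((nv V).ne_zero_iff.2 hg), h9] at h8
  simp only [← exp_nsmul, ← exp_add, exp_le_exp, nsmul_eq_mul] at h8
  rw [map_sub, map_nsmul, nsmul_eq_mul]
  push_cast at h8 ⊢
  nlinarith [mul_nonneg (Int.natCast_nonneg r) h10]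

section Smooth

open Crest.Agent.X277.Lef Crest.Agent.X277.BD.Br

theorem jb_eq {K : Type} [Field K] [Algebra ℂ K] (b : Basis (Fin n) K Ω[K⁄ℂ]) (z : Fin n → K) :
    jb b z = jac b z := by
  unfold jb jac
  convert rfl

/-- along a prime of a smooth model the canonical divisor has the canonical value -/
theorem kv_kP {K : Type} [Field K] [Algebra ℂ K] [Algebra.EssFiniteType ℂ K]
    (b : Basis (Fin n) K Ω[K⁄ℂ]) {W : PModel ℂ K} {V : RZ ℂ K} (hV : Prm (oP W) V) :
    Kv (nv V) b (exp (od V (kP W b))) := by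
  obtain ⟨z, h1, h2⟩ := Sark27.exists_jac W V b
  refine ⟨⟨z, fun i => (Geo.nv_le_one hV.dvs).2 (mem_of_loc (h1 i)), ?_⟩, fun c hc => ?_⟩
  · rw [jb_eq, Geo.eq_od_iff hV.dvs, h2]
  · rw [jb_eq, Geo.le_od_iff hV.dvs]
    exact Sark27.jac_le_kP b hV fun i => (Geo.nv_le_one hV.dvs).1 (hc i)

/-- **the ruled lemma** -/
theorem rl {L F : Type} [Field L] [Field F] [Algebra ℂ L] [Algebra ℂ F] [Algebra L F]
    [IsScalarTower ℂ L F] [Algebra.EssFiniteType ℂ L] [Algebra.EssFiniteType ℂ F]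
    (b : Basis (Fin n) L Ω[L⁄ℂ]) (b' : Basis (Fin (n + 1)) F Ω[F⁄ℂ]) {t : F}
    (ht : Transcendental L t) (htop : L⟮t⟯ = ⊤) {N : ℕ} (hN : N ≠ 0) {G D : BD ℂ F} {A : BD ℂ L}
    (hD : D.Free) (hl : Lin (G + D) (pb (IsScalarTower.toAlgHom ℂ L F) A))
    (hor : ∀ V : RZ ℂ F, (∀ c : L, algebraMap L F c ∈ V.1) → V.1 ≠ ⊤ → ∃ W : PModel ℂ F,
      Prm (oP W) V ∧ N * od V (kP W b') ≤ od V G ∧ od V G ≤ N * (od V (kP W b') + 1)) :
    ∃ R : ℕ, 0 < R ∧ ∃ φ : L, φ ≠ 0 ∧ ∀ (W : PModel ℂ F) (Q : PModel ℂ L) (V : RZ ℂ F)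
      (w : RZ ℂ L) (m : ℕ), Prm (oP W) V → Prm (oP Q) w →
      (∀ x : L, nv V (algebraMap L F x) = nv w x ^ m) →
      R * (N * (m - 1) + od V G - N * od V (kP W b')) ≤
        m * (od w (R • A - pr ℂ φ) - R * N * od w (kP Q b)) := by
  obtain ⟨R, hR, φ, hφ, h⟩ := rl_kv b b' ht htop hN hD hl fun V κ h1 h2 h3 => by
    obtain ⟨W, h4, h5⟩ := hor V h1 h2
    rwa [← exp_inj.1 ((kv_kP b' h4).unique h3)]
  exact ⟨R, hR, φ, hφ, fun W Q V w m hV hw hm =>
    h V w m _ _ hV.dvs hw.dvs hm (kv_kP b' hV) (kv_kP b hw)⟩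

end Smooth

end Crest.Agent.X262.Rl57
end

-- ▼ part X262/Rl57/Th
section

/-!
# Row 262, RL (helper57), part 4: the ruled lemma on models

`k ≤ L ≤ F`, the `H`-model of `F` maps to the `H₀`-model of `L`.

* `exists_prm_over` : over every prime of the base there is a prime of the total space;
* `prm_of_hor` : for a curve `F / L` every horizontal valuation is a prime;
* `rl_th` : an effective boundary upstairs gives an effective boundary downstairs.
-/

set_option autoImplicit false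
set_option linter.unusedSectionVars false

open WithZero IntermediateField Module
open scoped KaehlerDifferential

namespace Crest.Agent.X262.Rl57

open Crest.Agent.X277 Crest.Agent.X277.BD Crest.Agent.X277.Pst Crest.Agent.X277.Jet
open Crest.Agent.X277.Neg (nv nv_triv IsNv isNv_nv le_loc)
open Crest.Agent.X262.Geo (od)
open Crest.Agent.X262.Mod

variable {k L F : Type} [Field k] [Field L] [Field F] [Algebra k L] [Algebra k F] [Algebra L F]
  [IsScalarTower k L F] [CharZero k] [Algebra.EssFiniteType k L] [Algebra.EssFiniteType k F]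
  {H : BD k F} {H₀ : BD k L}

local notation "αL" => IsScalarTower.toAlgHom k L F

theorem map_mem_loc {V : RZ k F} {x : L} (hx : x ∈ loc H₀ (rsL L V)) :
    algebraMap L F x ∈ loc (pb αL H₀) V := by
  obtain ⟨m, g, h1, h2, h3⟩ := hx
  refine ⟨m, algebraMap L F g, ?_, ?_, ?_⟩ <;> rw [← map_nsmul]
  · exact pb_mem_Sec h1
  · exact (val_mp h2).symm
  · rw [← map_mul]
    exact pb_mem_Sec h3

/-- over every prime of the base there is a prime of the total space -/
theorem exists_prm_over (hH : IsMod H) (hH₀ : IsMod H₀) (hc : Car H (pb αL H₀)) {w : RZ k L}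
    (hw : Prm H₀ w) : ∃ V, Prm H V ∧ rsL L V = w := by
  classical
  by_contra hn
  push Not at hn
  obtain ⟨π, hπ⟩ := Geo.nv_unif hw.dvs
  have h0 : algebraMap L F π⁻¹ ≠ 0 := by simpa using ne_of_unif hπ
  let T := (Geo.fin_od hH (pr k (algebraMap L F π⁻¹))).toFinset.filter
    fun V => algebraMap L F π⁻¹ ∉ V.1
  have hT : ∀ V, Prm H V → algebraMap L F π⁻¹ ∉ V.1 → V ∈ T := fun V h1 h2 => by
    refine Finset.mem_filter.2 ⟨(Set.Finite.mem_toFinset _).2 ⟨h1, fun h3 => h2 ?_⟩, h2⟩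
    rw [Geo.od_eq_zero h1.dvs, val_pr h0] at h3
    exact RZ.le_one_iff.1 h3.le
  have h1 : ∀ V ∈ T, ¬ Gz H₀ w (rsL L V) := fun V hV h => by
    obtain ⟨h2, h3⟩ := Finset.mem_filter.1 hV
    refine hn V ((Set.Finite.mem_toFinset _).1 h2).1 (Subtype.ext ((isNv_nv hw.dvs).eq_of_le
      (fun h4 => h3 ?_) fun x hx => (gz_iff hH₀.free).1 h x (le_loc hH₀.free hH₀.bir hw hx)).symm)
    have h5 : π⁻¹ ∈ (rsL L V).1 := h4 ▸ ValuationSubring.mem_top _
    exact h5
  simp only [Gz, not_forall] at h1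
  choose! m g h2 h3 h4 using h1
  have h5 : ∏ V ∈ T, g V ∈ ((∑ V ∈ T, m V) • H₀).Sec := by
    rw [← Finset.sum_nsmul_assoc]
    exact prod_mem_Sec T h2
  have h6 : w.v (∏ V ∈ T, g V) = ((∑ V ∈ T, m V) • H₀).val w := by
    rw [← Finset.sum_nsmul_assoc, val_sum, map_prod]
    exact Finset.prod_congr rfl h3
  set G := ∏ V ∈ T, g V with hG
  set a := (∑ V ∈ T, m V) • H₀ with ha
  have h7 : algebraMap L F G ≠ 0 := by simpa using ne_of_val h6
  have h8 : ∀ V ∈ T, V.v (algebraMap L F G) < (pb αL a).val V := fun V hV => by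
    refine lt_of_le_of_ne (pb_mem_Sec h5 V) fun h => h4 V hV ?_
    have h9 : (rsL L V).v G = a.val (rsL L V) := v_eq_val_mp.1 h
    rw [hG, ha, ← Finset.sum_nsmul_assoc, val_sum, map_prod] at h9
    by_contra h10
    exact (Finset.prod_lt_prod (fun U hU => RZ.pos (ne_of_val (h3 U hU)))
      (fun U hU => h2 U hU _) ⟨V, hV, lt_of_le_of_ne (h2 V hV _) h10⟩).ne h9
  obtain ⟨N, hN⟩ := (T.image fun V => (log (nv V (algebraMap L F π⁻¹))).toNat).exists_le
  have h9 : algebraMap L F (π⁻¹ * G ^ N) ∈ (pb αL (N • a)).Sec := by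
    rw [map_nsmul]
    refine Geo.mem_Sec_of_od hH ((ha ▸ map_nsmul (pb αL) _ H₀ ▸ hc.nsmul _ :
      Car H (pb αL a)).nsmul N) fun V hV => ?_
    have h10 : log (nv V (algebraMap L F G)) ≤ od V (pb αL a) := by
      rw [← exp_le_exp, exp_log ((nv V).ne_zero_iff.2 h7)]
      exact Geo.le_exp_od (pb_mem_Sec h5)
    rw [map_mul, map_mul, map_pow, map_pow, ← exp_log ((nv V).ne_zero_iff.2 h7),
      ← exp_log ((nv V).ne_zero_iff.2 h0), ← exp_nsmul, ← exp_add, exp_le_exp, map_nsmul,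
      nsmul_eq_mul, nsmul_eq_mul]
    by_cases h11 : algebraMap L F π⁻¹ ∈ V.1
    · rw [← Geo.nv_le_one hV.dvs, ← exp_log ((nv V).ne_zero_iff.2 h0), ← exp_zero,
        exp_le_exp] at h11
      nlinarith [Int.natCast_nonneg N]
    · have h12 := hN _ (Finset.mem_image_of_mem _ (hT V hV h11))
      have h14 : log (nv V (algebraMap L F G)) ≠ od V (pb αL a) := fun h => (h8 V (hT V hV h11)).ne
        ((Geo.eq_od_iff hV.dvs).1 (by rw [← h, exp_log ((nv V).ne_zero_iff.2 h7)]))
      have h15 : log (nv V (algebraMap L F G)) + 1 ≤ od V (pb αL a) := by omega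
      have h16 : log (nv V (algebraMap L F π⁻¹)) ≤ N := by omega
      nlinarith [Int.natCast_nonneg N]
  have h10 := pb_mem_Sec_iff.1 (show αL _ ∈ _ from h9) w
  rw [map_mul, map_pow, h6, val_nsmul N a, mul_le_iff_le_one_left (pow_pos (val_pos _ _) _),
    RZ.le_one_iff, ← Geo.nv_le_one hw.dvs, map_inv₀, hπ, ← exp_neg, ← exp_zero, exp_le_exp] at h10
  omega

/-- for a curve over `L` every horizontal valuation is a prime -/
theorem prm_of_hor (hd : dim k F = dim k L + 1) (hH₀ : IsMod H₀) (hc : Car H (pb αL H₀))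
    {V : RZ k F} (hV : ∀ c : L, algebraMap L F c ∈ V.1) (h0 : V.1 ≠ ⊤) : Prm H V := by
  have h1 : ∀ c : L, c ≠ 0 → (rsL L V).v c = 1 := fun c hc => by
    refine le_antisymm (RZ.le_one_iff.2 (hV c)) ?_
    have h2 := RZ.le_one_iff.2 (show c⁻¹ ∈ (rsL L V).1 from hV c⁻¹)
    rwa [map_inv₀, inv_le_one₀ (RZ.pos hc)] at h2
  obtain ⟨Y⟩ := exists_fr k L
  refine ⟨h0, ?_⟩
  rw [show Gj.dm k F - 1 = finrank L Ω[L⁄k] from congrArg (· - 1) hd]
  refine ⟨fun i => algebraMap L F (Y.y i), fun i => hc.loc_le V (map_mem_loc ?_), fun i => hV _,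
    fun p hp => ?_⟩
  · obtain ⟨m, g, h2, h3, h4⟩ := hH₀.bir (Y.y i)
    refine ⟨m, g, h2, ?_, h4⟩
    rw [← v_gen, h1 _ h3, h1 _ (gen_ne _ _)]
  · have h2 := (v_cm_eq_iff _ (alg_ov αL) (W := V)).1 ((h1 _ fun h =>
      hp (algebraicIndependent_iff.1 Y.ai p h)).trans (map_one _).symm)
    rw [map_one, map_one] at h2
    exact (congrArg V.v (MvPolynomial.aeval_algebraMap_apply F Y.y p)).trans h2

section Smooth

open Crest.Agent.X277.Lef Crest.Agent.X277.BD.Br

theorem exists_smooth {K : Type} [Field K] [Algebra ℂ K] [Algebra.EssFiniteType ℂ K]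
    {H : BD ℂ K} : ∃ W : PModel ℂ K, ∀ V, Prm H V → Prm (oP W) V := by
  obtain ⟨W, hW⟩ := Unf.exists_on {H}
  exact ⟨W, fun V => (Sark27.car_of_on (hW H (by simp))).prm⟩

/-- **the ruled lemma on models** -/
theorem rl_th {L F : Type} [Field L] [Field F] [Algebra ℂ L] [Algebra ℂ F] [Algebra L F]
    [IsScalarTower ℂ L F] [Algebra.EssFiniteType ℂ L] [Algebra.EssFiniteType ℂ F] {n : ℕ}
    (b : Basis (Fin n) L Ω[L⁄ℂ]) (b' : Basis (Fin (n + 1)) F Ω[F⁄ℂ]) {t : F}
    (ht : Transcendental L t) (htop : L⟮t⟯ = ⊤) {N : ℕ} (hN : N ≠ 0) {G D H : BD ℂ F}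
    {A H₀ : BD ℂ L} (hD : D.Free) (hl : Lin (G + D) (pb (IsScalarTower.toAlgHom ℂ L F) A))
    (hH : IsMod H) (hH₀ : IsMod H₀) (hc : Car H (pb (IsScalarTower.toAlgHom ℂ L F) H₀))
    (hG : ∀ (W : PModel ℂ F) V, Prm (oP W) V → Prm H V → N * od V (kP W b') ≤ od V G)
    (hor : ∀ (W : PModel ℂ F) V, Prm (oP W) V → (∀ c : L, algebraMap L F c ∈ V.1) →
      od V G ≤ N * (od V (kP W b') + 1)) :
    ∃ R : ℕ, 0 < R ∧ ∃ T : BD ℂ L, Lin T (R • A) ∧
      (∀ (Q : PModel ℂ L) w, Prm (oP Q) w → Prm H₀ w →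
        ((R * N : ℕ) : ℤ) * od w (kP Q b) ≤ od w T) ∧
      ∀ (W : PModel ℂ F) (Q : PModel ℂ L) (V : RZ ℂ F) (w : RZ ℂ L) (m : ℕ),
        Prm (oP W) V → Prm (oP Q) w → (∀ x : L, nv V (algebraMap L F x) = nv w x ^ m) →
        R * (N * (m - 1) + od V G - N * od V (kP W b')) ≤
          m * (od w T - ((R * N : ℕ) : ℤ) * od w (kP Q b)) := by
  obtain ⟨W, hW⟩ := exists_smooth (H := H)
  have hd : dim ℂ F = dim ℂ L + 1 := by
    rw [dim, dim, finrank_eq_card_basis b, finrank_eq_card_basis b', Fintype.card_fin,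
      Fintype.card_fin]
  obtain ⟨R, hR, φ, hφ, h⟩ := rl b b' ht htop hN hD hl fun V h1 h2 => by
    have h3 := prm_of_hor hd hH₀ hc h1 h2
    exact ⟨W, hW V h3, hG W V (hW V h3) h3, hor W V (hW V h3) h1⟩
  refine ⟨R, hR, R • A - pr ℂ φ, ⟨φ⁻¹, inv_ne_zero hφ, by rw [pr_inv, sub_eq_add_neg]⟩,
    fun Q w h1 h2 => ?_, by simpa only [Nat.cast_mul] using h⟩
  obtain ⟨V, h3, rfl⟩ := exists_prm_over hH hH₀ hc h2
  obtain ⟨-, m, hm, h4⟩ := exists_ram (L := L) h3.dvs fun h4 => h2.1 (eq_top_iff.2 fun x _ => h4 x)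
  have h5 := h W Q V _ m (hW V h3) h1 h4
  have h6 := hG W V (hW V h3) h3
  have h7 : (0 : ℤ) ≤ R * (N * (m - 1) + od V G - N * od V (kP W b')) :=
    mul_nonneg (Int.natCast_nonneg R) (by nlinarith [Int.natCast_nonneg N])
  rw [Nat.cast_mul, ← sub_nonneg]
  exact nonneg_of_mul_nonneg_right (h7.trans h5) (by exact_mod_cast hm)

end Smooth

end Crest.Agent.X262.Rl57
end

-- ▼ part X262/Rl57/LemA

/-!
# Row 262, Lemma A (helper57), part 1: the ruled core

`F = L(t)`, `p_g(L) > 0`, `G - s K` effective on the `H`-model, `-G` ample over the `h`-model whose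
function field is a proper subfield of `L`.  Then `-G` has degree at most `s` on the generic fibre.
-/

set_option autoImplicit false
set_option linter.unusedSectionVars false

open WithZero IntermediateField Module
open scoped KaehlerDifferential

namespace Crest.Agent.X262.Rl57

open Crest.Agent.X277 Crest.Agent.X277.BD Crest.Agent.X277.Pst Crest.Agent.X277.Jet
open Crest.Agent.X277.Neg (nv nv_triv IsNv isNv_nv)
open Crest.Agent.X262.Geo (od)
open Crest.Agent.X262.Mod
open Crest.Agent.X262.Loc (Pt rzP ordP kC cf)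
open List (replicate)

section Gen

variable {k L F : Type} [Field k] [Field L] [Field F] [Algebra k L] [Algebra k F] [Algebra L F]
  [IsScalarTower k L F] [CharZero k] [Algebra.EssFiniteType k L] [Algebra.EssFiniteType k F]
  {H h a : BD k F}

local notation "αL" => IsScalarTower.toAlgHom k L F

/-- a positive functional which kills `h` but not the poles of `x` -/
theorem exists_ell (hH : IsMod H) (hh : h.Free) (hc : Car H h) {x : F} (hx : x ∉ cf h)
    (h0 : 0 ≤ a) (ha : x ∈ a.Sec) : ∃ l : List (BD k F), (∀ y ∈ l, Nef y ∧ Car H y) ∧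
      bnum (h :: l) = 0 ∧ 0 < bnum (a :: l) := by
  have h1 := Gfm.isMod_up (M := cf h) hH
  obtain ⟨V, hV, h2⟩ : ∃ V, Prm (up (cf h) H) V ∧ 0 < od V (up (cf h) a) := by
    by_contra hn
    push Not at hn
    refine hx (Gfm.mem_cf_of_Sec_zero (Car.zero.mem_Sec h1 fun V hV => ?_))
    exact (up_mem_Sec ha V).trans ((Geo.od_le_iff hV.dvs).1 ((hn V hV).trans_eq (map_zero _).symm))
  obtain ⟨d, hd⟩ := Geo.dim_pos_of_ne hV.1
  refine ⟨replicate d H ++ replicate (dim k (cf h)) h, fun y hy => ?_, ?_, ?_⟩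
  · rcases List.mem_append.1 hy with hy | hy <;> rw [List.eq_of_mem_replicate hy]
    exacts [⟨hH.free.nef, car_self hH.free⟩, ⟨hh.nef, hc⟩]
  · rw [← List.cons_append, Loc.bnum_cf hh, List.map_cons, (Loc.lin_up_cf hh).bnum_eq, bnum_zero,
      mul_zero]
  · rw [← List.cons_append, Loc.bnum_cf hh, List.map_cons, List.map_replicate]
    exact mul_pos (Loc.dl_pos hh) ((mul_pos h2 (Geo.dg_pos h1 hV hd)).trans_le
      (Geo.od_mul_le (up_nonneg h0) (fun y hy => List.eq_of_mem_replicate hy ▸ h1.free.nef) hV.dvs))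

theorem od_pb_hor {V : RZ k F} (hV : Dvs V) (h : ∀ c : L, algebraMap L F c ∈ V.1) (y : BD k L) :
    od V (pb αL y) = 0 := by
  have h1 := val_up (pb αL y) (⟨V.1, h⟩ : RZ L F)
  rw [up_pb _ fun _ => rfl] at h1
  exact (Geo.od_eq_zero hV).2 h1.symm

theorem od_dn (P : Pt L F) (y : BD k F) : od ((rzP P).dn k) y = ordP P (up L y) := by
  have hk : ∀ c : k, P.v (algebraMap k F c) ≤ 1 := fun c => by
    rw [IsScalarTower.algebraMap_apply k L F]
    exact P.le _
  exact (Geo.od_rz hk (Loc.unif_pt P) ▸ ord_up P.le hk y :).symm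

theorem dvs_dn (hd : dim k F = dim k L + 1) (P : Pt L F) : Dvs ((rzP P).dn k) := by
  obtain ⟨H₀, h1⟩ := exists_isMod k L
  obtain ⟨H, -, h2⟩ := exists_mod_car (pb αL H₀)
  exact (prm_of_hor hd h1 h2 (V := (rzP P).dn k) (rzP P).2 (Loc.rzP_ne_top P)).dvs

end Gen

open Crest.Agent.X277.Lef Crest.Agent.X277.BD.Br

theorem exists_smooth' {K : Type} [Field K] [Algebra ℂ K] [Algebra.EssFiniteType ℂ K]
    {V : RZ ℂ K} (hV : Dvs V) : ∃ W : PModel ℂ K, Prm (oP W) V := by
  obtain ⟨c, -, hc⟩ := Geo.exists_prm hV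
  obtain ⟨W, hW⟩ := exists_smooth (H := c)
  exact ⟨W, hW V hc⟩

variable {L F : Type} [Field L] [Field F] [Algebra ℂ L] [Algebra ℂ F] [Algebra L F]
  [IsScalarTower ℂ L F] [Algebra.EssFiniteType ℂ L] [Algebra.EssFiniteType ℂ F]
  [Algebra.EssFiniteType L F] [CharZero L] {n : ℕ}

local notation "αL" => IsScalarTower.toAlgHom ℂ L F

/-- if the degree is small, then the horizontal part is a boundary without exceptional primes -/
theorem hor_of_deg (b : Basis (Fin n) L Ω[L⁄ℂ]) (b' : Basis (Fin (n + 1)) F Ω[F⁄ℂ]) {t : F}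
    (ht : Transcendental L t) (htop : L⟮t⟯ = ⊤) {H G : BD ℂ F} {s : ℕ}
    (hT : ∀ (W : PModel ℂ F) V, Prm (oP W) V → Prm H V → s * od V (kP W b') ≤ od V G)
    (hE : ∀ (W : PModel ℂ F) V, Prm (oP W) V → ¬ Prm H V → (∀ c : L, algebraMap L F c ∈ V.1) →
      s * (od V (kP W b') + 1) ≤ od V G) (hc : s < bnum [up L (-G)]) {V : RZ ℂ F}
    (h1 : ∀ c : L, algebraMap L F c ∈ V.1) (h2 : V.1 ≠ ⊤) :
    Prm H V ∧ ∃ W : PModel ℂ F, Prm (oP W) V ∧ od V G ≤ s * (od V (kP W b') + 1) := by
  have hd := dim_eq_one b b'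
  have hd' : dim ℂ F = dim ℂ L + 1 := by rw [Geo.dim_basis b, Geo.dim_basis b']
  obtain ⟨Z⟩ : Nonempty (Fr L F (Fin 1)) := hd ▸ exists_fr L F
  obtain ⟨δ, h0, hδ⟩ := exists_rel b b' (Z.reindex (Equiv.ofUnique Unit (Fin 1)))
  have h3 : ∀ P : Pt L F, ∃ W : PModel ℂ F, Prm (oP W) ((rzP P).dn ℂ) ∧
      od ((rzP P).dn ℂ) G - s * od ((rzP P).dn ℂ) (kP W b') = ordP P (up L G - s • kC δ) := by
    intro P
    obtain ⟨W, hW⟩ := exists_smooth' (dvs_dn hd' P)
    obtain ⟨π, hπ⟩ := Loc.unif_pt P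
    have h3 := kv_kP b' hW
    rw [show nv ((rzP P).dn ℂ) = P.v from Geo.nv_rz (fun c => ((rzP P).dn ℂ).2 c) ⟨π, hπ⟩] at h3
    have h4 := h3.unique (kv_hor hδ P.le hπ)
    rw [Loc.v_der_unif hd h0 hπ, exp_inj] at h4
    exact ⟨W, hW, by rw [h4, od_dn, map_sub, map_nsmul, nsmul_eq_mul]⟩
  have h4 : 0 ≤ up L G - s • kC δ := (Loc.le_iff_ordP hd).2 fun P => by
    obtain ⟨W, h4, h5⟩ := h3 P
    rw [map_zero, ← h5, sub_nonneg]
    by_cases h6 : Prm H ((rzP P).dn ℂ)
    · exact hT W _ h4 h6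
    · exact le_trans (by nlinarith [Int.natCast_nonneg s]) (hE W _ h4 h6 (rzP P).2)
  obtain ⟨P, hP⟩ := Loc.exists_pt_of_ne hd (V := ⟨V.1, h1⟩) h2
  obtain rfl : V = (rzP P).dn ℂ := Subtype.ext (congrArg Subtype.val hP :)
  obtain ⟨W, h5, h6⟩ := h3 P
  have h7 := Loc.ordP_le_deg hd h4 P
  have h8 := Loc.degP_pos' hd P
  have h9 : 0 ≤ ordP P (up L G - s • kC δ) := ord_nonneg h4
  rw [bnum_sub, bnum_nsmul, Loc.deg_kC_rat ht htop h0] at h7
  rw [map_neg, bnum_neg] at hc
  have h10 : ordP P (up L G - s • kC δ) < s := by nlinarith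
  refine ⟨by_contra fun h11 => ?_, W, h5, by linarith⟩
  linarith [hE W _ h5 h11 h1]

/-- **the ruled core of Lemma A** -/
theorem core (b : Basis (Fin n) L Ω[L⁄ℂ]) (b' : Basis (Fin (n + 1)) F Ω[F⁄ℂ]) {t : F}
    (ht : Transcendental L t) (htop : L⟮t⟯ = ⊤) {Q : PModel ℂ L} (hQ : Eff (kP Q b))
    {H G h : BD ℂ F} {h₀ : BD ℂ L} {s q l : ℕ} (hH : IsMod H) (hh : h.Free) (hc : Car H h)
    (h0 : Lin h (pb αL h₀)) {x : L} (hx : algebraMap L F x ∉ cf h) (hs : 0 < s) (hq : 0 < q)
    (hM : (l • h - q • G - H).Free)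
    (hT : ∀ (W : PModel ℂ F) V, Prm (oP W) V → Prm H V → s * od V (kP W b') ≤ od V G)
    (hE : ∀ (W : PModel ℂ F) V, Prm (oP W) V → ¬ Prm H V → (∀ c : L, algebraMap L F c ∈ V.1) →
      s * (od V (kP W b') + 1) ≤ od V G) : bnum [up L (-G)] ≤ s := by
  by_contra hn
  push Not at hn
  obtain ⟨j, e, -, he, hf, -⟩ := hH.exists_exc (pb αL (pr ℂ x ⊔ 0))
  have h1 : ∀ V, Prm H V → od V (((j + 1) * q) • G + e) = ((j + 1) * q : ℕ) * od V G :=
    fun V hV => by
      rw [map_add, map_nsmul, nsmul_eq_mul, Geo.eqOn_iff.1 he V hV, map_zero, add_zero]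
  obtain ⟨R, hR, φ, hφ, h2⟩ := rl b b' ht htop (N := (j + 1) * q * s) (by positivity)
    (G := ((j + 1) * q) • G + e) (A := ((j + 1) * l) • h₀ - (pr ℂ x ⊔ 0))
    ((hM.nsmul (j + 1)).add (hf.add hH.free))
    (by
      rw [map_sub, map_nsmul, sub_eq_add_neg (_ • pb αL h₀)]
      convert (h0.nsmul ((j + 1) * l)).add (Lin.rfl (a := -pb αL (pr ℂ x ⊔ 0))) using 1
      module)
    fun V h2 h3 => by
      obtain ⟨h4, W, h5, h6⟩ := hor_of_deg b b' ht htop hT hE hn h2 h3
      have h7 := hT W V h5 h4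
      have h8 : (0 : ℤ) ≤ ((j + 1) * q : ℕ) := Int.natCast_nonneg _
      refine ⟨W, h5, ?_⟩
      rw [h1 V h4, Nat.cast_mul _ s, mul_assoc, mul_assoc]
      exact ⟨mul_le_mul_of_nonneg_left h7 h8, mul_le_mul_of_nonneg_left h6 h8⟩
  obtain ⟨ll, h3, h4, h5⟩ := exists_ell hH hh hc hx (pb_nonneg_iff.2 le_sup_right)
    (pb_mem_Sec (α := αL) (Sec_mono le_sup_left (mem_Sec_pr x)))
  obtain ⟨W, hW⟩ := exists_smooth (H := H)
  have h6 := Geo.bnum_nonneg_on hH.free (a := pb αL (R • (((j + 1) * l) • h₀ - (pr ℂ x ⊔ 0)) -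
    pr ℂ φ - (R * ((j + 1) * q * s)) • kP Q b)) (Geo.leOn_iff.2 fun V hV => ?_) h3
  · have h7 := (hQ.pb αL).bnum_nonneg fun y hy => (h3 y hy).1
    simp only [map_sub, map_nsmul, pb_pr _ φ, bnum_sub, bnum_nsmul, bnum_pr, ← h0.bnum_eq, h4,
      mul_zero, zero_sub, sub_zero] at h6
    have h8 : (0 : ℤ) < R := by exact_mod_cast hR
    nlinarith [mul_pos h8 h5, mul_nonneg (Int.natCast_nonneg (R * ((j + 1) * q * s))) h7]
  · rw [map_zero]
    by_cases h6 : ∀ c : L, algebraMap L F c ∈ V.1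
    · exact (od_pb_hor hV.dvs h6 _).ge
    obtain ⟨h7, m, hm, h8⟩ := exists_ram hV.dvs h6
    obtain ⟨Q', h9⟩ := exists_smooth' h7
    have h10 := h2 W Q' V _ m (hW V hV) h9 h8
    have h11 := hT W V (hW V hV) hV
    have h12 := Geo.od_kP_le (b := b) Q h9
    have h13 : (1 : ℤ) ≤ m := by exact_mod_cast hm
    have h14 : (0 : ℤ) ≤ ((j + 1) * q : ℕ) := Int.natCast_nonneg _
    rw [od_pb hV.dvs h7 h8, map_sub _ (_ - _), map_nsmul, nsmul_eq_mul, Nat.cast_mul R]
    rw [h1 V hV, Nat.cast_mul _ s] at h10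
    refine le_trans (le_trans ?_ h10) (mul_le_mul_of_nonneg_left (sub_le_sub_left ?_ _) (by omega))
    · refine mul_nonneg (Int.natCast_nonneg R) ?_
      nlinarith [mul_nonneg h14 (sub_nonneg.2 h11),
        mul_nonneg (mul_nonneg h14 (Int.natCast_nonneg s)) (sub_nonneg.2 h13)]
    · rw [← Nat.cast_mul _ s]
      exact mul_le_mul_of_nonneg_left h12 (by positivity)

end Crest.Agent.X262.Rl57
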