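import Crest.Agent.X262.Geo.Adj
import Crest.Agent.X262.Top.Defs
import Crest.Agent.X277.Unf.Main
import Crest.Agent.X262.Rl57.LemA
import Crest.Agent.X262.Surf.K3n

-- ▼ part X262/Sub14/End
section

/-!
# Row 262, BND (helper14): the surface end of the local analysis

`Th b H T s` : `T - s K` is effective at the primes of the `H`-model.

* `i1` : `s K · D ≤ T · D` for nef `D` which come from both models;
* `i2` : `s d ≤ 3 T · L` on a K3 surface, if a curve is contracted or has coefficient `≥ s / 3`;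
* `i3` : divisibility.
-/

set_option autoImplicit false

open scoped KaehlerDifferential

noncomputable section

namespace Crest.Agent.X262.Sub14

open Crest.Agent.X277 Crest.Agent.X277.BD Crest.Agent.X277.Pst Crest.Agent.X277.Lef
open Crest.Agent.X277.BD.Br (On oP kP)
open Crest.Agent.X262.Mod (IsMod Car EqOn)
open Crest.Agent.X262.Geo Crest.Agent.X262.Slc57 Crest.Agent.X262.Loc
open Crest.Agent.X262.Top (K3)
open Finset

variable {S : Type} [Field S] [Algebra ℂ S] [Algebra.EssFiniteType ℂ S] {H T D B : BD ℂ S}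
  {s d : ℕ} {V : RZ ℂ S} {P Q : PModel ℂ S}

/-- `T - s K` is effective at the primes of the `H`-model -/
def Th {n : ℕ} (b : Module.Basis (Fin n) S Ω[S⁄ℂ]) (H T : BD ℂ S) (s : ℕ) : Prop :=
  ∀ (Q : PModel ℂ S) (w : RZ ℂ S), Prm (oP Q) w → Prm H w → s * od w (kP Q b) ≤ od w T

omit [Algebra.EssFiniteType ℂ S] in
theorem dim_two (b : Module.Basis (Fin 2) S Ω[S⁄ℂ]) : dim ℂ S = 0 + 2 := by
  simpa using Module.finrank_eq_card_basis b

theorem dg_off (hd : dim ℂ S = 0 + 2) (hH : IsMod H) (hD : Car H D) (hV : Dvs V)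
    (h : ¬ Prm H V) : dg V [D] = 0 := dg_car (d := 0) hH.free hV (dim_cen_le hH hV h hd) hD

theorem mem_ex (hd : dim ℂ S = 0 + 2) (hH : IsMod H) :
    V ∈ ex2 Q 0 hH ↔ Prm (oP Q) V ∧ ¬ Prm H V :=
  mem_ex2.trans ⟨fun h => ⟨h.1, h.2.1⟩, fun h =>
    ⟨h.1, h.2, Nat.le_zero.1 (dim_cen_le hH h.1.dvs h.2 hd)⟩⟩

theorem i1 (b : Module.Basis (Fin 2) S Ω[S⁄ℂ]) (hH : IsMod H) (h : Th b H T s) (hn : Nef D)
    (hD : Car H D) (Q : PModel ℂ S) (hQ : D ∈ On Q) : s * bnum [kP Q b, D] ≤ bnum [T, D] := by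
  obtain ⟨U, -, h1, -, h2⟩ := exists_cyc (T - s • kP Q b) [D] ∅ (by simp)
  rw [← sub_nonneg, ← bnum_nsmul, ← bnum_sub, h2]
  refine sum_nonneg fun V hV => ?_
  by_cases h3 : dg V [D] = 0
  · rw [h3, mul_zero]
  · refine mul_nonneg ?_ (dg_nonneg (by simpa using hn))
    rw [map_sub, map_nsmul, nsmul_eq_mul, sub_nonneg]
    exact h Q V (by_contra fun h4 => h3 (dg_off (dim_two b) (Geo.isMod_oP Q) (car_of_On hQ) (h1 V hV) h4))
      (by_contra fun h4 => h3 (dg_off (dim_two b) hH hD (h1 V hV) h4))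

section K3

variable (X : K3 S d)

theorem num_L {a : BD ℂ S} (ha : a ∈ On X.P) : ∃ c : ℤ, bnum [a, X.L] = c * d ∧
    bnum [a, oP X.P] = c * bnum [X.L, oP X.P] ∧ bnum [a, a] = c * (c * d) := by
  obtain ⟨c, hc⟩ := X.gen a ha
  simp only [bnum_sub, bnum_zsmul, sub_eq_zero] at hc
  have h1 := hc _ X.L_on
  rw [X.L_sq] at h1
  exact ⟨c, h1, hc _ Br.oP_mem, by rw [hc a ha, bnum_swap, h1]⟩

include X in
theorem d_pos : (0 : ℤ) < d := by
  obtain ⟨c, h1, -⟩ := num_L X Br.oP_mem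
  have h2 := X.L_pos
  rw [bnum_swap, h1] at h2
  exact (Nat.cast_nonneg d).lt_of_ne fun h => by simp [← h] at h2

theorem num_dv (hV : Prm (oP X.P) V) :
    ∃ c : ℤ, 0 < c ∧ dg V [X.L] = c * d ∧ 0 < bnum [dv X.P V, dv X.P V] := by
  obtain ⟨c, h1, h2, h3⟩ := num_L X (dv_mem V)
  have h4 : 0 < dg V [oP X.P] := dg_oP_pos (d := 1) hV (dim_two X.b)
  rw [← bnum_dv hV (by simpa using Br.oP_mem), h2] at h4
  have h5 : 0 < c := pos_of_mul_pos_left h4 X.L_pos.le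
  refine ⟨c, h5, by rw [← h1, bnum_dv hV (by simpa using X.L_on)], ?_⟩
  rw [h3]
  exact mul_pos h5 (mul_pos h5 (d_pos X))

theorem dg_L_off (hV : Dvs V) (h : ¬ Prm (oP X.P) V) : dg V [X.L] = 0 :=
  dg_off (dim_two X.b) (Geo.isMod_oP _) (car_of_On X.L_on) hV h

theorem i3 (B : BD ℂ S) (r : ℕ) (h : ∀ w, Prm (oP X.P) w → (r : ℤ) ∣ od w B) :
    (r * d : ℤ) ∣ bnum [B, X.L] := by
  obtain ⟨U, -, h1, -, h2⟩ := exists_cyc B [X.L] ∅ (by simp)
  rw [h2]
  refine dvd_sum fun V hV => ?_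
  by_cases h3 : Prm (oP X.P) V
  · obtain ⟨c, -, h4, -⟩ := num_dv X h3
    exact mul_dvd_mul (h V h3) (h4 ▸ dvd_mul_left _ _)
  · rw [dg_L_off X (h1 V hV) h3, mul_zero]
    exact dvd_zero _

/-- a curve of the K3 surface which is contracted has coefficient `≥ s / 3` -/
theorem third (hH : IsMod H) (hT : Car H T) (hs : 0 < s) (h : Th X.b H T s)
    (hV : Prm (oP X.P) V) (hn : ¬ Prm H V) : (s : ℤ) ≤ 3 * (od V T - s * od V (kP X.P X.b)) := by
  classical
  have hd := dim_two X.b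
  obtain ⟨Q, h1, h2⟩ := Unf.exists_on_ge X.P {H}
  have hP : oP X.P ∈ On Q := h1 Br.oP_mem
  have hQ : H ∈ On Q := h2 H (mem_singleton_self H)
  have hK : kP Q X.b ∈ On Q := Br.kP_mem _
  have hs' : (0 : ℚ) < s := Nat.cast_pos.2 hs
  set C := cfg hH hQ hd hK (adjAt X.b hH.free hQ hd) with hC
  have hm : ∀ {W}, W ∈ C.s ↔ Prm (oP Q) W ∧ ¬ Prm H W := mem_ex hd hH
  have hX : ∀ {W}, W ∈ ex2 Q 0 (Geo.isMod_oP X.P) ↔ Prm (oP Q) W ∧ ¬ Prm (oP X.P) W :=
    mem_ex hd (Geo.isMod_oP X.P)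
  set a := T - s • kP Q X.b with ha
  have haQ : a ∈ On Q :=
    sub_mem (car_iff_On.1 ((car_of_On hQ).trans Br.free_oP hT)) (nsmul_mem hK s)
  have key := Cfg.third (C := C) (t := C.s) (e := V) (c := fun W => (od W a : ℚ) / s)
    (θ := fun j => -(C.k j : ℚ) - ∑ i ∈ C.s, (od i a : ℚ) / s * C.M j i)
    (α := fun W => od W (kP Q X.b - kP X.P X.b)) (z := fun W => od W (dv X.P V))
    (X := ex2 Q 0 (Geo.isMod_oP X.P)) Subset.rfl (hm.2 ⟨prm_up hP hV, hn⟩) (fun h3 => (hX.1 h3).2 hV)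
    (fun W hW => ?_) (fun W hW => ?_) (fun x => ?_) (by simp [od_dv_self hV]) ?_ (fun W hW => ?_)
    (fun W _ => by rw [Cfg.ev]; ring)
  · rw [le_div_iff₀ hs', ha, map_sub, map_nsmul, nsmul_eq_mul,
      ← (od_eq_iff hV.dvs).2 (Sark27.kP_eq_val X.b hV (prm_up hP hV))] at key
    have h3 : (s : ℚ) ≤ ((3 * (od V T - s * od V (kP X.P X.b)) : ℤ) : ℚ) := by
      push_cast at key ⊢
      linarith
    exact_mod_cast h3
  · rw [map_sub, Int.cast_pos, sub_pos, od_lt_iff (hX.1 hW).1.dvs]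
    exact Sark27.kP_lt_val X.b (hX.1 hW).1 (hX.1 hW).2
  · have h3 := dg_exc (Geo.isMod_oP X.P) hP hd (hm.1 hW).1 (sub_mem hK (h1 (Br.kP_mem X.b)))
      (eqOn_iff.2 fun U hU => by
        rw [map_sub, map_zero, sub_eq_zero, od_eq_iff hU.dvs]
        exact (Sark27.kP_eq_val X.b hU (prm_up hP hU)).symm)
    rw [dg_sub, Lin.dg_eq X.can, dg_zero, sub_zero] at h3
    rw [cfg_k _ _ _ _ _ (hm.1 hW).1]
    exact_mod_cast h3
  · by_cases hx : ∃ i ∈ ex2 Q 0 (Geo.isMod_oP X.P), x i ≠ 0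
    · obtain ⟨e, h3, h4⟩ := exists_neg (Geo.isMod_oP X.P) hP hd
      exact (neg_def mt_comm (fun _ _ => mt_nonneg Br.free_oP hP) (fun U _ => h3 U) h4 x hx).le
    · push Not at hx
      exact (sum_eq_zero fun i hi => sum_eq_zero fun j _ => by simp [hx i hi]).le
  · obtain ⟨-, -, -, h3⟩ := num_dv X hV
    have h4 := eq_sum_dv (h1 (dv_mem V)) (T := insert V (ex2 Q 0 (Geo.isMod_oP X.P))) fun U h4 h5 =>
      mem_insert.2 (by_contra fun h6 => by
        rw [not_or, hX, not_and, not_not] at h6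
        exact h5 (od_dv_ne (h6.2 h4) h6.1))
    have h5 : bnum [dv X.P V, dv X.P V] = ∑ i ∈ insert V (ex2 Q 0 (Geo.isMod_oP X.P)),
        ∑ j ∈ insert V (ex2 Q 0 (Geo.isMod_oP X.P)),
          od i (dv X.P V) * od j (dv X.P V) * C.M i j := by
      conv_lhs => rw [h4, bnum_sum]
      refine sum_congr rfl fun i _ => ?_
      rw [bnum_zsmul, bnum_swap, bnum_sum, mul_sum]
      refine sum_congr rfl fun j _ => ?_
      rw [bnum_zsmul, bnum_swap, mul_assoc]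
      rfl
    rw [h5] at h3
    rw [Cfg.Q]
    exact_mod_cast h3
  · have h3 : ∀ U, Prm (oP Q) U → od U (a - ∑ i ∈ C.s, od i a • dv Q i) =
        if U ∈ C.s then 0 else od U a := fun U hU => by
      rw [map_sub, map_sum]
      simp only [map_zsmul, od_dv hU, smul_eq_mul, mul_ite, mul_one, mul_zero, sum_ite_eq]
      split_ifs <;> simp
    have h4 := dg_nonneg_of (V := W) (l := []) (nonneg_On (sub_mem haQ (sum_dv_mem _ _))
      fun U hU => by
        rw [h3 U hU]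
        split_ifs with h4
        · exact le_rfl
        · rw [ha, map_sub, map_nsmul, nsmul_eq_mul, sub_nonneg]
          exact h Q U hU (by_contra fun h5 => h4 (hm.2 ⟨hU, h5⟩)))
      ((od_eq_zero (hm.1 hW).1.dvs).1 (by rw [h3 W (hm.1 hW).1, if_pos hW])) (by simp)
    rw [dg_sub, dg_sum, ha, dg_sub, dg_nsmul, dg_off hd hH hT (hm.1 hW).1.dvs (hm.1 hW).2, ← ha] at h4
    simp only [dg_zsmul] at h4
    have h5 : (0 : ℚ) ≤ -(s * C.k W) - ∑ i ∈ C.s, (od i a : ℚ) * C.M W i := by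
      rw [cfg_k _ _ _ _ _ (hm.1 hW).1]
      simp only [hC, cfg_M _ _ _ _ _ (hm.1 hW).1]
      rw [zero_sub] at h4
      exact_mod_cast h4
    refine le_of_mul_le_mul_left (le_of_eq_of_le (mul_zero _) (h5.trans_eq ?_)) hs'
    rw [mul_sub, mul_sum, mul_neg]
    exact congrArg _ (sum_congr rfl fun i _ => by field_simp)

theorem i2 (hH : IsMod H) (hT : Car H T) (hs : 0 < s) (h : Th X.b H T s)
    (hw : ∃ w, Prm (oP X.P) w ∧
      (¬ Prm H w ∨ (s : ℤ) ≤ 3 * (od w T - s * od w (kP X.P X.b)))) :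
    (s * d : ℤ) ≤ 3 * bnum [T, X.L] := by
  obtain ⟨w, h1, h2⟩ := hw
  have h3 := h2.elim (third X hH hT hs h h1) id
  obtain ⟨U, h4, h5, -, h6⟩ := exists_cyc (T - s • kP X.P X.b) [X.L] {w} (by simpa using h1.dvs)
  rw [bnum_sub, bnum_nsmul, X.can.bnum_eq, bnum_zero, mul_zero, sub_zero] at h6
  simp only [map_sub, map_nsmul, nsmul_eq_mul] at h6
  have h7 := single_le_sum (f := fun V => (od V T - s * od V (kP X.P X.b)) * dg V [X.L])
    (fun V hV => by
      by_cases h7 : Prm (oP X.P) V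
      · obtain ⟨c, hc, h8, -⟩ := num_dv X h7
        refine mul_nonneg ?_ (h8 ▸ (mul_pos hc (d_pos X)).le)
        by_cases h9 : Prm H V
        · exact sub_nonneg.2 (h _ V h7 h9)
        · have := third X hH hT hs h h7 h9
          omega
      · rw [dg_L_off X (h5 V hV) h7, mul_zero]) (h4 (mem_singleton_self w))
  obtain ⟨c, hc, h8, -⟩ := num_dv X h1
  rw [← h6, h8] at h7
  have h9 := d_pos X
  have h10 : (d : ℤ) ≤ c * d := le_mul_of_one_le_left h9.le hc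
  nlinarith

end K3

end Crest.Agent.X262.Sub14
end
end

-- ▼ part X262/Rl57/SubF

/-!
# Row 262, SUB (helper57), part 1: the ruled threefold over the surface

`R = S(t)`, `G + D ∼ pb (a + p)`, `G - s K` effective, `D` free of degree `2 s` on the fibre.

* `psi`  : a pull-back whose horizontal part is divisible by `s`;
* `fib1`, `fib2` : the inequalities `I1`, `I2` of `Bnd.SubD`.
-/

set_option autoImplicit false
set_option linter.unusedSectionVars false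

open IntermediateField Module
open scoped KaehlerDifferential

namespace Crest.Agent.X262.Rl57

open Crest.Agent.X277 Crest.Agent.X277.BD Crest.Agent.X277.Pst Crest.Agent.X277.Lef
open Crest.Agent.X277.BD.Br (On oP kP)
open Crest.Agent.X277.Neg (nv)
open Crest.Agent.X262.Geo (od)
open Crest.Agent.X262.Mod
open Crest.Agent.X262.Loc (Pt rzP ordP dvB dvC)
open Crest.Agent.X262.Sub14 (Th)

variable {S R : Type} [Field S] [Field R] [Algebra ℂ S] [Algebra ℂ R] [Algebra S R]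
  [IsScalarTower ℂ S R] [Algebra.EssFiniteType ℂ S] [Algebra.EssFiniteType ℂ R]
  [Algebra.EssFiniteType S R] [CharZero S] {t : R} {s : ℕ} {H G D B : BD ℂ R} {a p y : BD ℂ S}

local notation "αS" => IsScalarTower.toAlgHom ℂ S R

theorem mem_of_alg (ht : Transcendental S t) (htop : S⟮t⟯ = ⊤) {x : R} (hx : IsAlgebraic S x) :
    ∃ c, algebraMap S R c = x := by
  have h : x ∈ algebraicClosure S R := mem_algebraicClosure_iff.2 hx
  rwa [Loc.closed_of_cst (Loc.cst_rat ht htop), mem_bot] at h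

/-- a pull-back whose horizontal part is divisible by `s` -/
theorem psi (ht : Transcendental S t) (htop : S⟮t⟯ = ⊤) (hs : 0 < s) (hl : Lin B (pb αS y))
    (h : ∀ P : Pt S R, (s : ℤ) ∣ ordP P (up S B)) :
    ∃ (y' : BD ℂ S) (χ : R), Lin y' y ∧ pb αS y' = B - s • pr ℂ χ := by
  have hd := Loc.dim_rat ht htop
  obtain ⟨ψ, hψ, rfl⟩ := hl
  simp only [map_add, up_pb αS fun _ => rfl, zero_add, up_pr] at h
  let c := dvB hd ((dvC hd (pr S ψ)).mapRange (· / (s : ℤ)) (by simp))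
  have h1 : s • c = pr S ψ := Loc.ext_ordP hd fun P => by
    rw [map_nsmul, Loc.ordP_dvB, Finsupp.mapRange_apply, Loc.dvC_apply, nsmul_eq_mul,
      Int.mul_ediv_cancel' (h P)]
  have h2 : bnum [c] = 0 := by
    have h2 := bnum_pr (k := S) ψ []
    rw [← h1, bnum_nsmul] at h2
    exact (mul_eq_zero.1 h2).resolve_left (by exact_mod_cast hs.ne')
  have h3 := Loc.finrank_gn0 hd (Loc.gn_rat ht htop) (a := c) (by
    rw [h2, Loc.cst_rat ht htop]
    norm_num)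
  rw [h2, Loc.cst_rat ht htop] at h3
  obtain ⟨χ, hχ, h4⟩ := Loc.lin_zero_of_eff hd (eff_iff_finrank.2 (by omega)) h2
  have h5 : ψ / χ ^ s ≠ 0 := div_ne_zero hψ (pow_ne_zero _ hχ)
  obtain ⟨γ, hγ⟩ := mem_of_alg ht htop (Gfm.isAlg_of_Sec_zero ((pr_le_iff h5).1 (by
    rw [pr_div hψ (pow_ne_zero _ hχ), pr_pow hχ, ← h1, h4, zero_add, sub_self])))
  refine ⟨y + pr ℂ γ, χ, ⟨γ, fun h0 => h5 (by rw [← hγ, h0, map_zero]), rfl⟩, ?_⟩
  rw [map_add, pb_pr, IsScalarTower.coe_toAlgHom', hγ, pr_div hψ (pow_ne_zero _ hχ), pr_pow hχ,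
    add_sub_assoc]

variable (ht : Transcendental S t) (htop : S⟮t⟯ = ⊤) (b' : Basis (Fin (2 + 1)) R Ω[R⁄ℂ])
  (hs : 0 < s) (hH : IsMod H) (ha : IsMod a) (hc : Car H (pb (IsScalarTower.toAlgHom ℂ S R) a))
  (hD : D.Free) (hl : Lin (G + D) (pb (IsScalarTower.toAlgHom ℂ S R) (a + p)))
  (hd : bnum [up S D] = 2 * s) (hG : Th b' H G s)
include ht htop hs hH ha hc hD hl hd hG

theorem fib0 (c : Basis (Fin 2) S Ω[S⁄ℂ]) : ∃ r : ℕ, 0 < r ∧ ∃ T : BD ℂ S,
    Lin T (r • (a + p)) ∧ Th c a T (r * s) ∧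
      ∀ (Q : PModel ℂ S) (V : RZ ℂ R) (w : RZ ℂ S) (m : ℕ), Prm H V → Prm (oP Q) w →
        (∀ x : S, nv V (algebraMap S R x) = nv w x ^ m) →
        (r * s : ℕ) * ((m : ℤ) - 1) ≤ m * (od w T - (r * s : ℕ) * od w (kP Q c)) := by
  have h1 : dim ℂ R = dim ℂ S + 1 := by rw [Geo.dim_basis c, Geo.dim_basis b']
  have h2 := (hl.up S).bnum_eq []
  rw [up_pb αS fun _ => rfl, bnum_zero, map_add, bnum_add, hd] at h2
  obtain ⟨r, hr, T, h3, h4, h5⟩ := rl_th c b' ht htop hs.ne' hD hl hH ha hc hG fun W V h3 h4 => by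
    obtain ⟨-, W', h5, h6⟩ := hor_of_deg c b' ht htop hG
      (fun W V h5 h6 h7 => absurd (prm_of_hor h1 ha hc h7 h5.1) h6)
      (by rw [map_neg, bnum_neg]; omega) h4 h3.1
    rwa [Geo.od_kP_eq h3 h5]
  obtain ⟨W, hW⟩ := exists_smooth (H := H)
  refine ⟨r, hr, T, h3, h4, fun Q V w m h6 h7 h8 => le_trans ?_ (h5 W Q V w m (hW V h6) h7 h8)⟩
  rw [Nat.cast_mul, mul_assoc]
  exact mul_le_mul_of_nonneg_left (by linarith [hG W V (hW V h6) h6]) (Int.natCast_nonneg r)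

theorem fib1 (Q : PModel ℂ S) (c : Basis (Fin 2) S Ω[S⁄ℂ]) {x : BD ℂ S} (h1 : x ∈ On Q)
    (h2 : Nef x) (h3 : Car a x) : s * bnum [kP Q c, x] ≤ bnum [a + p, x] := by
  obtain ⟨r, hr, T, h4, h5, -⟩ := fib0 ht htop b' hs hH ha hc hD hl hd hG c
  have h6 := Sub14.i1 c ha h5 h2 h3 Q h1
  rw [h4.bnum_eq, bnum_nsmul, Nat.cast_mul, mul_assoc] at h6
  exact le_of_mul_le_mul_left h6 (by exact_mod_cast hr)

theorem fib2 {δ : ℕ} (k : Top.K3 S δ) (hp : Car a p) (hB : Lin B (pb αS (p - a)))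
    (hi : ∀ V, Prm H V → (s : ℤ) ∣ od V B) (h0 : NumZ p) : (s * δ : ℤ) ≤ 4 * bnum [a, k.L] := by
  obtain ⟨r, hr, T, h1, h2, h3⟩ := fib0 ht htop b' hs hH ha hc hD hl hd hG k.b
  have h4 : 0 < bnum [a, k.L] := by
    have h4 : Big k.L := (Surf.K3n.nef_L k).big_iff.2 (by
      rw [Surf.K3n.dim_two k]
      exact k.L_sq ▸ Int.natCast_pos.2 (Surf.K3n.d_pos k))
    exact bnum_pos (by simp [Surf.K3n.dim_two k])
      (by simp [ha.free.nef, ha.big, h4, Surf.K3n.nef_L k])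
  have h5 : (0 : ℤ) < r := by exact_mod_cast hr
  by_cases h6 : ∃ w, Prm (oP k.P) w ∧ (¬ Prm a w ∨
      ((r * s : ℕ) : ℤ) ≤ 3 * (od w T - (r * s : ℕ) * od w (kP k.P k.b)))
  · have h7 := Sub14.i2 k ha ((((car_self ha.free).add hp).nsmul r).of_lin h1) (mul_pos hr hs) h2 h6
    rw [h1.bnum_eq, bnum_nsmul, bnum_add, h0, add_zero, Nat.cast_mul, mul_assoc,
      mul_left_comm 3] at h7
    linarith [le_of_mul_le_mul_left h7 h5]
  push Not at h6
  have h7 : dim ℂ R = dim ℂ S + 1 := by rw [Geo.dim_basis k.b, Geo.dim_basis b']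
  obtain ⟨y, χ, h8, h9⟩ := psi ht htop hs hB fun P => by
    rw [← od_dn]
    exact hi _ (prm_of_hor h7 ha hc (V := (rzP P).dn ℂ) (rzP P).2 (Loc.rzP_ne_top P))
  have h10 := Sub14.i3 k y s fun w hw => by
    obtain ⟨h10, h11⟩ := h6 w hw
    obtain ⟨V, h12, rfl⟩ := exists_prm_over hH ha hc h10
    obtain ⟨-, m, hm, h13⟩ := exists_ram (L := S) h12.dvs
      fun h13 => h10.1 (eq_top_iff.2 fun x _ => h13 x)
    have h14 := h3 k.P V _ m h12 hw h13
    have h15 : (0 : ℤ) < (r * s : ℕ) := by exact_mod_cast mul_pos hr hs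
    obtain rfl : m = 1 := by
      by_contra h16
      have h17 : (2 : ℤ) ≤ m := by omega
      nlinarith [mul_lt_mul_of_pos_left h11 (by omega : (0 : ℤ) < m)]
    have h16 := od_pb h12.dvs hw.dvs h13 y
    rw [h9, Nat.cast_one, one_mul, map_sub, map_nsmul, nsmul_eq_mul] at h16
    exact h16 ▸ (hi V h12).sub (dvd_mul_right _ _)
  rw [h8.bnum_eq, bnum_sub, h0, zero_sub, dvd_neg] at h10
  linarith [Int.le_of_dvd h4 h10]

end Crest.Agent.X262.Rl57
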